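import Vale.Agent.P366.H353.CL.Id
import Vale.Agent.P366.H208.CL.LfOf

/-! The divergence of the flux field at interior points. -/

open MeasureTheory Metric Filter Topology Set
open scoped ContDiff

noncomputable section
namespace Vale.Agent.P366.CL
open Vale.Agent.P366 (pd E)
open Vale.Agent.P366.Kerr (NullCone)

variable {n : ℕ} {C : NullCone n} {lam W : E n → ℝ} {D : Stmt.Exterior n} {y : E n}

/-- **The divergence of the flux field is the density `den`.** -/
theorem div_XL [Fact (3 ≤ n)] (hL : IsLeafExt C lam W D) (hy : 0 < D.F y) :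
    ∑ i, Stmt.pd i (XL lam W D.K i) y = den lam W D.g D.K y :=
  Lf.div_XL (CLam.lf_of hL)
    (fun i j x _ => ((D.smooth i j).2.contDiffAt).of_le (CLam.nat_le_inf _))
    (fun x _ i j => (D.symm x i j).2)
    (fun _ hx => (CLam.lapL_pos' hL (le_of_lt hx)).ne') hy

/-- The same with the partial derivatives of `fderiv`. -/
theorem div_XL' [Fact (3 ≤ n)] (hL : IsLeafExt C lam W D) (hy : 0 < D.F y) :
    ∑ i, pd i (XL lam W D.K i) y = den lam W D.g D.K y := by
  rw [← div_XL hL hy]
  exact Finset.sum_congr rfl fun i _ => (spd_eq (XL_cd (hL.smL y hy.le) (hL.smW y hy.le)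
    ((CLam.lf_of hL).pos y hy).ne' (CLam.lapL_pos' hL hy.le).ne' i) i).symm

end Vale.Agent.P366.CL
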