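import Mathlib

/-! Algebra of the contractions with the inverse metric `δ - ω a ⊗ a`. -/

noncomputable section
namespace Vale.Agent.P366.CL

variable {n : ℕ}

/-- contraction with the inverse metric `δ - ω a ⊗ a` -/
lemma c1 (a x : Fin n → ℝ) (ω : ℝ) (i : Fin n) :
    ∑ m, ((if i = m then 1 else 0) - ω * a i * a m) * x m = x i - ω * a i * ∑ m, a m * x m := by
  have h : ∀ m, ((if i = m then 1 else 0) - ω * a i * a m) * x m =
      (if i = m then x m else 0) - ω * a i * (a m * x m) := by
    intro m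
    split_ifs <;> ring
  simp only [h, Finset.sum_sub_distrib, ← Finset.mul_sum]
  simp

/-- the inner product of two tensors, the first symmetric -/
lemma c2 (a : Fin n → ℝ) (ω : ℝ) (P A : Fin n → Fin n → ℝ) (hP : ∀ i j, P i j = P j i) :
    ∑ i, ∑ m, ((if i = m then 1 else 0) - ω * a i * a m) * ∑ j, ∑ l,
      ((if j = l then 1 else 0) - ω * a j * a l) * (P m j * A i l) =
    ∑ i, ∑ l, P i l * A i l - ω * ∑ i, (∑ l, P i l * a l) * (∑ l, A i l * a l) -
      ω * ∑ l, (∑ i, P l i * a i) * (∑ i, A i l * a i) +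
      ω ^ 2 * (∑ i, a i * ∑ l, P i l * a l) * (∑ i, a i * ∑ l, A i l * a l) := by
  have h1 : ∀ i m, ∑ j, ∑ l, ((if j = l then 1 else 0) - ω * a j * a l) * (P m j * A i l) =
      ∑ l, P m l * A i l - ω * (∑ l, P m l * a l) * (∑ l, A i l * a l) := by
    intro i m
    have h2 : ∀ j, ∑ l, ((if j = l then 1 else 0) - ω * a j * a l) * (P m j * A i l) =
        P m j * A i j - ω * (P m j * a j) * (∑ l, A i l * a l) := by
      intro j
      rw [c1 a (fun l => P m j * A i l) ω j]
      have : ∑ l, a l * (P m j * A i l) = P m j * ∑ l, A i l * a l := by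
        rw [Finset.mul_sum]
        exact Finset.sum_congr rfl fun l _ => by ring
      rw [this]
      ring
    simp only [h2, Finset.sum_sub_distrib, ← Finset.sum_mul, ← Finset.mul_sum]
  simp only [h1, mul_sub, Finset.sum_sub_distrib]
  have h3 : ∀ i, ∑ m, ((if i = m then 1 else 0) - ω * a i * a m) * ∑ l, P m l * A i l =
      ∑ l, P i l * A i l - ω * (a i * ∑ l, A i l * ∑ m, P l m * a m) := by
    intro i
    rw [c1 a (fun m => ∑ l, P m l * A i l) ω i]
    have : ∑ m, a m * ∑ l, P m l * A i l = ∑ l, A i l * ∑ m, P l m * a m := by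
      simp only [Finset.mul_sum]
      rw [Finset.sum_comm]
      exact Finset.sum_congr rfl fun l _ => Finset.sum_congr rfl fun m _ => by
        rw [hP m l]; ring
    rw [this]
    ring
  have h4 : ∀ i, ∑ m, ((if i = m then 1 else 0) - ω * a i * a m) *
      (ω * (∑ l, P m l * a l) * (∑ l, A i l * a l)) =
      ω * ((∑ l, P i l * a l) * (∑ l, A i l * a l)) -
        ω ^ 2 * (∑ i, a i * ∑ l, P i l * a l) * (a i * ∑ l, A i l * a l) := by
    intro i
    rw [c1 a (fun m => ω * (∑ l, P m l * a l) * (∑ l, A i l * a l)) ω i]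
    have : ∑ m, a m * (ω * (∑ l, P m l * a l) * (∑ l, A i l * a l)) =
        ω * (∑ l, A i l * a l) * ∑ i, a i * ∑ l, P i l * a l := by
      rw [Finset.mul_sum]
      exact Finset.sum_congr rfl fun m _ => by ring
    rw [this]
    ring
  simp only [h3, h4, Finset.sum_sub_distrib, ← Finset.mul_sum]
  have h5 : ∑ i, a i * ∑ l, A i l * ∑ m, P l m * a m =
      ∑ l, (∑ i, P l i * a i) * (∑ i, A i l * a i) := by
    have g1 : ∀ i, a i * ∑ l, A i l * ∑ m, P l m * a m =
        ∑ l, (∑ m, P l m * a m) * (A i l * a i) := by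
      intro i
      rw [Finset.mul_sum]
      exact Finset.sum_congr rfl fun l _ => by ring
    simp only [g1]
    rw [Finset.sum_comm]
    exact Finset.sum_congr rfl fun l _ => by rw [Finset.mul_sum]
  rw [h5]
  ring

end Vale.Agent.P366.CL
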