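import Vale.Agent.P366.H353.CL.Dv

/-! The Christoffel symbols of the metric `δ + W dλ ⊗ dλ`. -/

open MeasureTheory Metric Filter Topology Set
open scoped ContDiff

noncomputable section
namespace Vale.Agent.P366.CL
open Vale.Agent.P366.Stmt Vale.Agent.P366.T2 Vale.Agent.P366.GC
open Vale.Agent.P366.H896 (CR pd_comm pd_congrU)

variable {n : ℕ} {h : Stmt.Field n} {lam W : E n → ℝ} {O : Set (E n)} {y z : E n}

/-- `∇W · ∇λ` -/
def wa (lam W : E n → ℝ) (z : E n) : ℝ := ∑ l, Stmt.pd l W z * Stmt.pd l lam z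

lemma w_a (lam W : E n → ℝ) (z : E n) : ∑ l, Stmt.pd l lam z * Stmt.pd l W z = wa lam W z :=
  Finset.sum_congr rfl fun _ _ => mul_comm _ _

/-- the tensor `P` of the Christoffel symbols -/
def PP (lam W : E n → ℝ) (i j : Fin n) (z : E n) : ℝ :=
  (Stmt.pd i W z * Stmt.pd j lam z + Stmt.pd j W z * Stmt.pd i lam z) / 2 +
    W z * Stmt.pd i (Stmt.pd j lam) z + W z * wa lam W z / 2 * (Stmt.pd i lam z * Stmt.pd j lam z)

/-- the contraction of `P` with `∇λ` -/
def pp (lam W : E n → ℝ) (i : Fin n) (z : E n) : ℝ :=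
  Stmt.pd i W z / 2 + (1 + W z) * wa lam W z / 2 * Stmt.pd i lam z

namespace Lf

variable (hL : Lf h lam W O)
include hL

/-- the Christoffel symbols -/
lemma chr_eq (hz : z ∈ O) (k i j : Fin n) : Stmt.chr h k i j z =
    1 / (1 + W z) * Stmt.pd k lam z * PP lam W i j z -
      Stmt.pd i lam z * Stmt.pd j lam z * Stmt.pd k W z / 2 := by
  have hp := (hL.pos z hz).ne'
  unfold Stmt.chr
  simp only [hL.up_eq hz, hL.pdh hz]
  have e0 : ∀ l, (Stmt.pd i W z * Stmt.pd j lam z * Stmt.pd l lam z +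
      W z * (Stmt.pd i (Stmt.pd j lam) z * Stmt.pd l lam z +
        Stmt.pd j lam z * Stmt.pd i (Stmt.pd l lam) z) +
      (Stmt.pd j W z * Stmt.pd i lam z * Stmt.pd l lam z +
      W z * (Stmt.pd j (Stmt.pd i lam) z * Stmt.pd l lam z +
        Stmt.pd i lam z * Stmt.pd j (Stmt.pd l lam) z)) -
      (Stmt.pd l W z * Stmt.pd i lam z * Stmt.pd j lam z +
      W z * (Stmt.pd l (Stmt.pd i lam) z * Stmt.pd j lam z +
        Stmt.pd i lam z * Stmt.pd l (Stmt.pd j lam) z))) =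
      (Stmt.pd i W z * Stmt.pd j lam z + Stmt.pd j W z * Stmt.pd i lam z +
        2 * W z * Stmt.pd i (Stmt.pd j lam) z) * Stmt.pd l lam z -
      Stmt.pd i lam z * Stmt.pd j lam z * Stmt.pd l W z := by
    intro l
    rw [hL.bsym hz j i, hL.bsym hz l i, hL.bsym hz l j]
    ring
  simp only [e0]
  rw [c1 (fun i => Stmt.pd i lam z) _ (1 - 1 / (1 + W z)) k]
  have e1 : ∑ m, Stmt.pd m lam z * ((Stmt.pd i W z * Stmt.pd j lam z +
      Stmt.pd j W z * Stmt.pd i lam z +
        2 * W z * Stmt.pd i (Stmt.pd j lam) z) * Stmt.pd m lam z -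
      Stmt.pd i lam z * Stmt.pd j lam z * Stmt.pd m W z) =
      (Stmt.pd i W z * Stmt.pd j lam z + Stmt.pd j W z * Stmt.pd i lam z +
        2 * W z * Stmt.pd i (Stmt.pd j lam) z) -
      Stmt.pd i lam z * Stmt.pd j lam z * wa lam W z := by
    have e2 : ∀ m, Stmt.pd m lam z * ((Stmt.pd i W z * Stmt.pd j lam z +
      Stmt.pd j W z * Stmt.pd i lam z +
        2 * W z * Stmt.pd i (Stmt.pd j lam) z) * Stmt.pd m lam z -
      Stmt.pd i lam z * Stmt.pd j lam z * Stmt.pd m W z) =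
      (Stmt.pd i W z * Stmt.pd j lam z + Stmt.pd j W z * Stmt.pd i lam z +
        2 * W z * Stmt.pd i (Stmt.pd j lam) z) * (Stmt.pd m lam z * Stmt.pd m lam z) -
      Stmt.pd i lam z * Stmt.pd j lam z * (Stmt.pd m W z * Stmt.pd m lam z) :=
      fun m => by ring
    simp only [e2, Finset.sum_sub_distrib, ← Finset.mul_sum, hL.un z hz]
    unfold wa
    ring
  rw [e1]
  unfold PP
  field_simp
  ring

/-- the contraction of `P` with `∇λ` -/
lemma PP_a (hz : z ∈ O) (i : Fin n) :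
    ∑ j, PP lam W i j z * Stmt.pd j lam z = pp lam W i z := by
  have e1 : ∀ j, PP lam W i j z * Stmt.pd j lam z =
      Stmt.pd i W z / 2 * (Stmt.pd j lam z * Stmt.pd j lam z) +
      Stmt.pd i lam z / 2 * (Stmt.pd j W z * Stmt.pd j lam z) +
      W z * (Stmt.pd i (Stmt.pd j lam) z * Stmt.pd j lam z) +
      W z * wa lam W z / 2 * Stmt.pd i lam z * (Stmt.pd j lam z * Stmt.pd j lam z) := by
    intro j
    unfold PP
    ring
  simp only [e1, Finset.sum_add_distrib, ← Finset.mul_sum, hL.un z hz, hL.bz hz i]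
  unfold pp
  rw [show ∑ j, Stmt.pd j W z * Stmt.pd j lam z = wa lam W z from rfl]
  ring

lemma PP_symm (hz : z ∈ O) (i j : Fin n) : PP lam W i j z = PP lam W j i z := by
  unfold PP
  rw [hL.bsym hz i j]
  ring

lemma PP_a' (hz : z ∈ O) (i : Fin n) :
    ∑ j, Stmt.pd j lam z * PP lam W j i z = pp lam W i z := by
  rw [← hL.PP_a hz i]
  exact Finset.sum_congr rfl fun j _ => by rw [hL.PP_symm hz i j]; ring

/-- the derivative of the volume -/
lemma chr_tr (hz : z ∈ O) (i : Fin n) :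
    ∑ m, Stmt.chr h m i m z = 1 / (1 + W z) * Stmt.pd i W z / 2 := by
  have hp := (hL.pos z hz).ne'
  simp only [hL.chr_eq hz]
  have e1 : ∀ m, 1 / (1 + W z) * Stmt.pd m lam z * PP lam W i m z -
      Stmt.pd i lam z * Stmt.pd m lam z * Stmt.pd m W z / 2 =
      1 / (1 + W z) * (PP lam W i m z * Stmt.pd m lam z) -
        Stmt.pd i lam z / 2 * (Stmt.pd m W z * Stmt.pd m lam z) := fun m => by ring
  simp only [e1, Finset.sum_sub_distrib, ← Finset.mul_sum, hL.PP_a hz i]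
  rw [show ∑ j, Stmt.pd j W z * Stmt.pd j lam z = wa lam W z from rfl]
  unfold pp
  field_simp
  ring

end Lf

end Vale.Agent.P366.CL
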