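import Vale.Agent.P366.H353.CL.Chr

/-! The divergence of `√h π(ψ dλ)` for the metric `h = δ + W dλ ⊗ dλ`, in flat letters. -/

open MeasureTheory Metric Filter Topology Set
open scoped ContDiff

noncomputable section
namespace Vale.Agent.P366.CL
open Vale.Agent.P366.Stmt Vale.Agent.P366.T2 Vale.Agent.P366.GC
open Vale.Agent.P366.H896 (CR pd_comm pd_congrU)
open Vale.Agent.P366.SH (kb div_cov cov_contr dot2 cr_tr cr_momT)

variable {n : ℕ} {h K : Stmt.Field n} {lam W ψ : E n → ℝ} {O : Set (E n)} {y z : E n}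

lemma nn_eq (lam : E n → ℝ) (K : Stmt.Field n) (z : E n) :
    ∑ i, Stmt.pd i lam z * ∑ l, K z i l * Stmt.pd l lam z = nn lam K z := by
  unfold nn col
  exact Finset.sum_congr rfl fun i _ => by ring

namespace Lf

variable (hL : Lf h lam W O)
include hL

lemma tr_eq' (hz : z ∈ O) (K : Stmt.Field n) :
    Stmt.tr h K z = trL lam K z + 1 / (1 + W z) * nn lam K z := by
  rw [hL.tr_eq hz K, nn_eq]
  unfold trL
  ring

lemma sq (hz : z ∈ O) : √(1 + W z) * √(1 + W z) = 1 + W z := Real.mul_self_sqrt (hL.pos z hz).le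

lemma sq0 (hz : z ∈ O) : 0 < √(1 + W z) := Real.sqrt_pos.2 (hL.pos z hz)

/-- the vector `π(ψ dλ)` -/
lemma vec (hz : z ∈ O) (K : Stmt.Field n) (ψ : E n → ℝ) (i : Fin n) :
    ∑ m, Stmt.up h i m z * kb h (Stmt.momT h K) (fun l y => ψ y * Stmt.pd l lam y) m z =
      1 / (1 + W z) * (ψ z * (col lam K i z - nn lam K z * Stmt.pd i lam z -
        trL lam K z * Stmt.pd i lam z)) := by
  have hp := (hL.pos z hz).ne'
  have h1 : ∀ m, kb h (Stmt.momT h K) (fun l y => ψ y * Stmt.pd l lam y) m z =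
      ψ z * (1 / (1 + W z)) * (col lam K m z - Stmt.tr h K z * (1 + W z) * Stmt.pd m lam z) := by
    intro m
    have g1 : ∑ j, Stmt.momT h K z m j * Stmt.pd j lam z =
        col lam K m z - Stmt.tr h K z * (1 + W z) * Stmt.pd m lam z := by
      simp only [hL.momT_eq hz]
      exact cP_right (hL.un z hz) m
    rw [← g1, Finset.mul_sum]
    unfold kb
    refine Finset.sum_congr rfl fun j _ => ?_
    have g2 : ∑ l, Stmt.up h j l z * (Stmt.momT h K z m j * (ψ z * Stmt.pd l lam z)) =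
        Stmt.momT h K z m j * ψ z * ∑ l, Stmt.up h j l z * Stmt.pd l lam z := by
      rw [Finset.mul_sum]
      exact Finset.sum_congr rfl fun l _ => by ring
    rw [g2, hL.up_a' hz]
    ring
  simp only [h1, hL.up_eq hz]
  have h2 := c1 (fun i => Stmt.pd i lam z) (fun m => ψ z * (1 / (1 + W z)) *
    (col lam K m z - Stmt.tr h K z * (1 + W z) * Stmt.pd m lam z)) (1 - 1 / (1 + W z)) i
  rw [h2]
  have h3 : ∑ m, Stmt.pd m lam z * (ψ z * (1 / (1 + W z)) *
      (col lam K m z - Stmt.tr h K z * (1 + W z) * Stmt.pd m lam z)) =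
      ψ z * (1 / (1 + W z)) * (nn lam K z - Stmt.tr h K z * (1 + W z)) := by
    have g1 : ∀ m, Stmt.pd m lam z * (ψ z * (1 / (1 + W z)) *
        (col lam K m z - Stmt.tr h K z * (1 + W z) * Stmt.pd m lam z)) =
        ψ z * (1 / (1 + W z)) * (col lam K m z * Stmt.pd m lam z) -
        ψ z * (1 / (1 + W z)) * (Stmt.tr h K z * (1 + W z)) *
          (Stmt.pd m lam z * Stmt.pd m lam z) := fun m => by ring
    simp only [g1, Finset.sum_sub_distrib, ← Finset.mul_sum, hL.un z hz]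
    unfold nn
    ring
  rw [h3, hL.tr_eq' hz]
  field_simp
  ring

/-- **The divergence of `π(ψ dλ)`.** -/
theorem div_V (hK : ∀ i j, CR 1 O fun y => K y i j) (hKs : ∀ y ∈ O, ∀ i j, K y i j = K y j i)
    (hψ : CR 1 O ψ) (hz : z ∈ O) :
    ∑ i, Stmt.pd i (fun y => ψ y / √(1 + W y) * (col lam K i y - nn lam K y * Stmt.pd i lam y -
      trL lam K y * Stmt.pd i lam y)) z =
    ψ z * (∑ j, Stmt.mom h K j z * Stmt.pd j lam z) / √(1 + W z) + 1 / √(1 + W z) *
      ((∑ i, Stmt.pd i ψ z * col lam K i z - (∑ i, Stmt.pd i ψ z * Stmt.pd i lam z) *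
        nn lam K z) + ψ z * (∑ i, ∑ l, K z i l * Stmt.pd i (Stmt.pd l lam) z) -
      1 / (1 + W z) * ψ z * (∑ i, Stmt.pd i W z * col lam K i z -
        (∑ i, Stmt.pd i W z * Stmt.pd i lam z) * nn lam K z) -
      trL lam K z * (∑ i, Stmt.pd i ψ z * Stmt.pd i lam z) -
      (trL lam K z + 1 / (1 + W z) * nn lam K z) * ψ z * lapL lam z +
      1 / (1 + W z) * trL lam K z * ψ z * (∑ i, Stmt.pd i W z * Stmt.pd i lam z) / 2) := by
  have hp := hL.pos z hz
  have hs0 := hL.sq0 hz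
  have hsq := hL.sq hz
  set Y : Fin n → E n → ℝ := fun l y => ψ y * Stmt.pd l lam y with hY
  have hYc : ∀ l, CR 1 O (Y l) := fun l => hψ.mul ((hL.sL1 l).le (by norm_num))
  have hπ := cr_momT hL.M hK
  have hX : ∀ i, CR 1 O fun y => ∑ m, Stmt.up h i m y * kb h (Stmt.momT h K) Y m y := fun i =>
    CR.sum _ fun m => ((hL.M.cr_up i m).le (by norm_num)).mul
      (CR.sum _ fun j => CR.sum _ fun l => ((hL.M.cr_up j l).le (by norm_num)).mul
        ((hπ m j).mul (hYc l)))
  -- the left side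
  have h1 : ∀ i, Stmt.pd i (fun y => ψ y / √(1 + W y) * (col lam K i y -
      nn lam K y * Stmt.pd i lam y - trL lam K y * Stmt.pd i lam y)) z = √(1 + W z) *
      (Stmt.pd i (fun y => ∑ m, Stmt.up h i m y * kb h (Stmt.momT h K) Y m y) z +
      (∑ m, Stmt.chr h m i m z) * ∑ m, Stmt.up h i m z * kb h (Stmt.momT h K) Y m z) := by
    intro i
    have a1 : HP i (fun y => √(1 + W y) *
        ∑ m, Stmt.up h i m y * kb h (Stmt.momT h K) Y m y) _ z :=
      (hL.vol z hz i).mul (CR.hp (hX i) hz i)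
    have a2 : HP i (fun y => ψ y / √(1 + W y) * (col lam K i y -
      nn lam K y * Stmt.pd i lam y - trL lam K y * Stmt.pd i lam y)) _ z := a1.congr (by
        filter_upwards [hL.op.mem_nhds hz] with x hx
        rw [hL.vec hx K ψ i]
        have b1 := hL.sq hx
        have b2 := (hL.sq0 hx).ne'
        have b3 := (hL.pos x hx).ne'
        have b4 : √(1 + W x) * (1 / (1 + W x)) = 1 / √(1 + W x) := by
          rw [mul_one_div, div_eq_div_iff b3 b2]
          linarith
        rw [← mul_assoc, b4]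
        ring)
    rw [a2.pd]
    ring
  simp only [h1]
  rw [← Finset.mul_sum, div_gen hL.M hπ hYc hz]
  -- the momentum density
  have h2 : ∑ j, ∑ l, Stmt.up h j l z * ((∑ i, ∑ m, Stmt.up h i m z *
      cdK h (Stmt.momT h K) m i j z) * Y l z) =
      ψ z * (1 / (1 + W z)) * ∑ j, Stmt.mom h K j z * Stmt.pd j lam z := by
    rw [Finset.mul_sum]
    refine Finset.sum_congr rfl fun j _ => ?_
    have g2 : ∑ l, Stmt.up h j l z * ((∑ i, ∑ m, Stmt.up h i m z *
        cdK h (Stmt.momT h K) m i j z) * Y l z) =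
        Stmt.mom h K j z * ψ z * ∑ l, Stmt.up h j l z * Stmt.pd l lam z := by
      rw [Finset.mul_sum]
      refine Finset.sum_congr rfl fun l _ => ?_
      show Stmt.up h j l z * (Stmt.mom h K j z * (ψ z * Stmt.pd l lam z)) = _
      ring
    rw [g2, hL.up_a' hz]
    ring
  rw [h2]
  -- the contraction with the covariant derivative
  have hc : ∀ i l, Stmt.pd i (Y l) z - ∑ d, Stmt.chr h d i l z * Y d z =
      cA (fun i => Stmt.pd i lam z) (fun i => Stmt.pd i ψ z) (fun i => Stmt.pd i W z)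
      (fun i j => Stmt.pd i (Stmt.pd j lam) z) (ψ z) (1 / (1 + W z)) i l :=
    fun i l => hL.cov hψ hz i l
  have h3 := key (a := fun i => Stmt.pd i lam z) (p := fun i => Stmt.pd i ψ z)
    (w := fun i => Stmt.pd i W z) (b := fun i j => Stmt.pd i (Stmt.pd j lam) z) (K := K z)
    (ψ := ψ z) (ρ := 1 / (1 + W z)) (t := Stmt.tr h K z) (W := W z) (hL.un z hz)
    (fun i => hL.bz hz i) (fun i l => hL.bsym hz i l) (hKs z hz)
    (by field_simp) (hL.tr_eq hz K)
  simp only [hc, hL.momT_eq hz, hL.up_eq hz]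
  rw [h3]
  have h4 : ∀ i, ∑ l, K z i l * Stmt.pd l lam z = col lam K i z := fun i => rfl
  have h5 : ∑ i, K z i i - nn lam K z = trL lam K z := rfl
  have h6 : ∑ i, Stmt.pd i (Stmt.pd i lam) z = lapL lam z := rfl
  rw [nn_eq, h5, h6, hL.tr_eq' hz]
  simp only [h4]
  generalize (∑ i, Stmt.pd i ψ z * col lam K i z) = pc
  generalize (∑ i, Stmt.pd i ψ z * Stmt.pd i lam z) = pa
  generalize (∑ i, Stmt.pd i W z * col lam K i z) = wc
  generalize (∑ i, Stmt.pd i W z * Stmt.pd i lam z) = wa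
  generalize (∑ i, ∑ l, K z i l * Stmt.pd i (Stmt.pd l lam) z) = s1
  generalize (∑ j, Stmt.mom h K j z * Stmt.pd j lam z) = J
  have e : √(1 + W z) * (1 / (1 + W z)) = 1 / √(1 + W z) := by
    rw [mul_one_div, div_eq_div_iff hp.ne' hs0.ne']
    linarith
  linear_combination (ψ z * J + ((pc - pa * nn lam K z) + ψ z * s1 - 1 / (1 + W z) * ψ z *
    (wc - wa * nn lam K z) - trL lam K z * pa -
    (trL lam K z + 1 / (1 + W z) * nn lam K z) * ψ z * lapL lam z +
    1 / (1 + W z) * trL lam K z * ψ z * wa / 2)) * e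

end Lf

end Vale.Agent.P366.CL
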