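import Vale.Agent.P366.H353.CL.Loc
import Vale.Agent.P366.H896.G.Div

/-! The divergence of `π(ψ dλ)` for the metric `δ + W dλ ⊗ dλ`. -/

open MeasureTheory Metric Filter Topology Set
open scoped ContDiff

noncomputable section
namespace Vale.Agent.P366.CL
open Vale.Agent.P366.Stmt Vale.Agent.P366.T2 Vale.Agent.P366.GC
open Vale.Agent.P366.H896 (CR pd_comm pd_congrU)
open Vale.Agent.P366.SH (kb div_cov cov_contr dot2 cr_tr cr_momT)

variable {n : ℕ} {h K : Stmt.Field n} {lam W ψ : E n → ℝ} {O : Set (E n)} {y z : E n}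

namespace Lf

variable (hL : Lf h lam W O)
include hL

lemma pdh (hz : z ∈ O) (k i j : Fin n) : Stmt.pd k (fun y => h y i j) z =
    Stmt.pd k W z * Stmt.pd i lam z * Stmt.pd j lam z +
      W z * (Stmt.pd k (Stmt.pd i lam) z * Stmt.pd j lam z +
        Stmt.pd i lam z * Stmt.pd k (Stmt.pd j lam) z) := by
  have h1 : HP k (fun y => (if i = j then 1 else 0) + W y * (Stmt.pd i lam y * Stmt.pd j lam y))
      (0 + (Stmt.pd k W z * (Stmt.pd i lam z * Stmt.pd j lam z) +
        W z * (Stmt.pd k (Stmt.pd i lam) z * Stmt.pd j lam z +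
        Stmt.pd i lam z * Stmt.pd k (Stmt.pd j lam) z))) z :=
    (HP.const k _ z).add ((CR.hp (hL.sW.le (by norm_num : 0 + 1 ≤ 5)) hz k).mul
      ((CR.hp ((hL.sL1 i).le (by norm_num : 0 + 1 ≤ 4)) hz k).mul
        (CR.hp ((hL.sL1 j).le (by norm_num : 0 + 1 ≤ 4)) hz k)))
  have h2 : HP k (fun y => h y i j) _ z := h1.congr (by
    filter_upwards [hL.op.mem_nhds hz] with x hx
    rw [hL.met x hx i j]
    ring)
  rw [h2.pd]
  ring

lemma up_a (hz : z ∈ O) (l : Fin n) :
    ∑ d, Stmt.pd d lam z * Stmt.up h d l z = 1 / (1 + W z) * Stmt.pd l lam z := by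
  simp only [hL.up_eq hz]
  have e1 : ∀ d, Stmt.pd d lam z * ((if d = l then 1 else 0) -
      (1 - 1 / (1 + W z)) * Stmt.pd d lam z * Stmt.pd l lam z) =
      (if d = l then Stmt.pd d lam z else 0) -
        (1 - 1 / (1 + W z)) * Stmt.pd l lam z * (Stmt.pd d lam z * Stmt.pd d lam z) := by
    intro d; split_ifs <;> ring
  simp only [e1, Finset.sum_sub_distrib, ← Finset.mul_sum, hL.un z hz]
  simp
  ring

lemma up_a' (hz : z ∈ O) (l : Fin n) :
    ∑ d, Stmt.up h l d z * Stmt.pd d lam z = 1 / (1 + W z) * Stmt.pd l lam z := by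
  rw [← hL.up_a hz l]
  exact Finset.sum_congr rfl fun d _ => by rw [hL.M.up_symm hz l d]; ring

lemma chrL (hz : z ∈ O) (i j : Fin n) :
    ∑ d, Stmt.chr h d i j z * Stmt.pd d lam z = 1 / (1 + W z) / 2 *
      (Stmt.pd i W z * Stmt.pd j lam z + Stmt.pd j W z * Stmt.pd i lam z +
        2 * W z * Stmt.pd i (Stmt.pd j lam) z -
        (∑ l, Stmt.pd l W z * Stmt.pd l lam z) * (Stmt.pd i lam z * Stmt.pd j lam z)) := by
  have e1 : ∑ d, Stmt.chr h d i j z * Stmt.pd d lam z =
      ∑ l, (∑ d, Stmt.pd d lam z * Stmt.up h d l z) * ((Stmt.pd i (fun y => h y j l) z +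
        Stmt.pd j (fun y => h y i l) z - Stmt.pd l (fun y => h y i j) z) / 2) := by
    unfold Stmt.chr
    simp only [Finset.sum_mul, Finset.sum_div]
    rw [Finset.sum_comm]
    exact Finset.sum_congr rfl fun l _ => Finset.sum_congr rfl fun d _ => by ring
  rw [e1]
  simp only [hL.up_a hz, hL.pdh hz]
  set a : Fin n → ℝ := fun i => Stmt.pd i lam z with ha
  set w : Fin n → ℝ := fun i => Stmt.pd i W z with hw
  set b : Fin n → Fin n → ℝ := fun i j => Stmt.pd i (Stmt.pd j lam) z with hb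
  have e2 : ∀ l, 1 / (1 + W z) * a l * ((w i * a j * a l + W z * (b i j * a l + a j * b i l) +
      (w j * a i * a l + W z * (b j i * a l + a i * b j l)) -
      (w l * a i * a j + W z * (b l i * a j + a i * b l j))) / 2) =
      1 / (1 + W z) / 2 * ((w i * a j + w j * a i + W z * b i j + W z * b j i) * (a l * a l) +
        W z * a j * (b i l * a l) + W z * a i * (b j l * a l) -
        a i * a j * (w l * a l) - W z * a j * (b l i * a l) - W z * a i * (b l j * a l)) :=
    fun l => by ring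
  have h1 : ∑ l, a l * a l = 1 := hL.un z hz
  have h2 : ∀ i, ∑ l, b i l * a l = 0 := fun i => hL.bz hz i
  have h3 : ∀ i, ∑ l, b l i * a l = 0 := fun i => by
    rw [← h2 i]
    exact Finset.sum_congr rfl fun l _ => by
      show Stmt.pd l (Stmt.pd i lam) z * _ = Stmt.pd i (Stmt.pd l lam) z * _
      rw [hL.bsym hz l i]
  have h4 : b j i = b i j := hL.bsym hz j i
  have e3 : ∑ l, 1 / (1 + W z) * a l * ((w i * a j * a l + W z * (b i j * a l + a j * b i l) +
      (w j * a i * a l + W z * (b j i * a l + a i * b j l)) -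
      (w l * a i * a j + W z * (b l i * a j + a i * b l j))) / 2) =
      1 / (1 + W z) / 2 * (w i * a j + w j * a i + 2 * W z * b i j -
        (∑ l, w l * a l) * (a i * a j)) := by
    simp only [e2]
    rw [← Finset.mul_sum]
    simp only [Finset.sum_add_distrib, Finset.sum_sub_distrib, ← Finset.mul_sum, h1, h2, h3, h4]
    ring
  exact e3

/-- the covariant derivative of `ψ dλ` -/
lemma cov (hψ : CR 1 O ψ) (hz : z ∈ O) (i l : Fin n) :
    Stmt.pd i (fun y => ψ y * Stmt.pd l lam y) z -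
      ∑ d, Stmt.chr h d i l z * (ψ z * Stmt.pd d lam z) =
    cA (fun i => Stmt.pd i lam z) (fun i => Stmt.pd i ψ z) (fun i => Stmt.pd i W z)
      (fun i j => Stmt.pd i (Stmt.pd j lam) z) (ψ z) (1 / (1 + W z)) i l := by
  have h1 : HP i (fun y => ψ y * Stmt.pd l lam y)
      (Stmt.pd i ψ z * Stmt.pd l lam z + ψ z * Stmt.pd i (Stmt.pd l lam) z) z :=
    (CR.hp hψ hz i).mul (CR.hp ((hL.sL1 l).le (by norm_num : 0 + 1 ≤ 4)) hz i)
  have h2 : ∑ d, Stmt.chr h d i l z * (ψ z * Stmt.pd d lam z) =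
      ψ z * ∑ d, Stmt.chr h d i l z * Stmt.pd d lam z := by
    rw [Finset.mul_sum]
    exact Finset.sum_congr rfl fun d _ => by ring
  rw [h1.pd, h2, hL.chrL hz]
  have hp := (hL.pos z hz).ne'
  unfold cA
  field_simp
  ring

/-- the trace -/
lemma tr_eq (hz : z ∈ O) (K : Stmt.Field n) : Stmt.tr h K z = ∑ i, K z i i -
    (1 - 1 / (1 + W z)) * ∑ i, Stmt.pd i lam z * ∑ l, K z i l * Stmt.pd l lam z := by
  unfold Stmt.tr
  simp only [hL.up_eq hz]
  have e1 : ∀ i j, ((if i = j then 1 else 0) -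
      (1 - 1 / (1 + W z)) * Stmt.pd i lam z * Stmt.pd j lam z) * K z i j =
      (if i = j then K z i j else 0) -
        (1 - 1 / (1 + W z)) * (Stmt.pd i lam z * (K z i j * Stmt.pd j lam z)) := by
    intro i j; split_ifs <;> ring
  simp only [e1, Finset.sum_sub_distrib, ← Finset.mul_sum]
  simp

/-- the momentum tensor -/
lemma momT_eq (hz : z ∈ O) (K : Stmt.Field n) (i j : Fin n) : Stmt.momT h K z i j =
    cP (fun i => Stmt.pd i lam z) (K z) (Stmt.tr h K z) (W z) i j := by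
  unfold Stmt.momT cP
  rw [hL.met z hz i j]

end Lf

/-- the divergence of `π(Y)`, without the volume factor -/
theorem div_gen {π : Stmt.Field n} (hM : Met h O) (hk : ∀ i j, CR 1 O fun y => π y i j)
    {Y : Fin n → E n → ℝ} (hY : ∀ l, CR 1 O (Y l)) (hy : y ∈ O) :
    ∑ i, (Stmt.pd i (fun y => ∑ m, Stmt.up h i m y * kb h π Y m y) y +
      (∑ m, Stmt.chr h m i m y) * ∑ m, Stmt.up h i m y * kb h π Y m y) =
    ∑ j, ∑ l, Stmt.up h j l y * ((∑ i, ∑ m, Stmt.up h i m y *
        cdK h π m i j y) * Y l y) +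
      ∑ i, ∑ m, Stmt.up h i m y * ∑ j, ∑ l, Stmt.up h j l y *
        (π y m j * (Stmt.pd i (Y l) y - ∑ d, Stmt.chr h d i l y * Y d y)) := by
  have hθ : ∀ m, CR 1 O (kb h π Y m) := fun m =>
    CR.sum _ fun j => CR.sum _ fun l => ((hM.cr_up j l).le (by norm_num)).mul
      ((hk m j).mul (hY l))
  rw [div_cov hM hθ hy]
  have e1 : ∀ i m, Stmt.pd i (kb h π Y m) y - ∑ d, Stmt.chr h d i m y * kb h π Y d y =
      ∑ j, ∑ l, Stmt.up h j l y * (cdK h π i m j y * Y l y) +
      ∑ j, ∑ l, Stmt.up h j l y * (π y m j *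
        (Stmt.pd i (Y l) y - ∑ d, Stmt.chr h d i l y * Y d y)) := by
    intro i m
    have a1 := cov_contr hM hk hY hy i m
    rw [show Stmt.pd i (kb h π Y m) y = Stmt.pd i (fun y => ∑ j, ∑ l,
      Stmt.up h j l y * (π y m j * Y l y)) y from rfl]
    unfold kb
    rw [a1, ← Finset.sum_add_distrib]
    refine Finset.sum_congr rfl fun j _ => ?_
    rw [← Finset.sum_add_distrib]
    exact Finset.sum_congr rfl fun l _ => by ring
  simp only [e1, mul_add, Finset.sum_add_distrib]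
  congr 1
  have b1 : ∀ j l, Stmt.up h j l y * ((∑ i, ∑ m, Stmt.up h i m y *
      cdK h π m i j y) * Y l y) =
      ∑ m, ∑ i, Stmt.up h m i y * (Stmt.up h j l y * (cdK h π m i j y * Y l y)) := by
    intro j l
    rw [Finset.sum_comm, Finset.sum_mul, Finset.mul_sum]
    refine Finset.sum_congr rfl fun m _ => ?_
    rw [Finset.sum_mul, Finset.mul_sum]
    exact Finset.sum_congr rfl fun i _ => by rw [hM.up_symm hy i m]; ring
  simp only [b1]
  have b2 : ∀ i m, Stmt.up h i m y * ∑ j, ∑ l, Stmt.up h j l y * (cdK h π i m j y * Y l y) =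
      ∑ j, ∑ l, Stmt.up h i m y * (Stmt.up h j l y * (cdK h π i m j y * Y l y)) := by
    intro i m
    rw [Finset.mul_sum]
    exact Finset.sum_congr rfl fun j _ => by rw [Finset.mul_sum]
  simp only [b2]
  calc ∑ i, ∑ m, ∑ j, ∑ l, Stmt.up h i m y * (Stmt.up h j l y * (cdK h π i m j y * Y l y))
      = ∑ i, ∑ j, ∑ m, ∑ l, Stmt.up h i m y * (Stmt.up h j l y * (cdK h π i m j y * Y l y)) :=
        Finset.sum_congr rfl fun i _ => Finset.sum_comm
    _ = ∑ j, ∑ i, ∑ m, ∑ l, Stmt.up h i m y * (Stmt.up h j l y *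
        (cdK h π i m j y * Y l y)) := Finset.sum_comm
    _ = ∑ j, ∑ i, ∑ l, ∑ m, Stmt.up h i m y * (Stmt.up h j l y *
        (cdK h π i m j y * Y l y)) :=
        Finset.sum_congr rfl fun j _ => Finset.sum_congr rfl fun i _ => Finset.sum_comm
    _ = ∑ j, ∑ l, ∑ i, ∑ m, Stmt.up h i m y * (Stmt.up h j l y *
        (cdK h π i m j y * Y l y)) :=
        Finset.sum_congr rfl fun j _ => Finset.sum_comm

end Vale.Agent.P366.CL
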