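import Vale.Agent.P366.H353.CL.Chr

/-! The scalar curvature of the metric `δ + W dλ ⊗ dλ`. -/

open MeasureTheory Metric Filter Topology Set
open scoped ContDiff

noncomputable section
namespace Vale.Agent.P366.CL
open Vale.Agent.P366.Stmt Vale.Agent.P366.T2 Vale.Agent.P366.GC
open Vale.Agent.P366.H896 (CR pd_comm pd_congrU)

variable {n : ℕ} {h : Stmt.Field n} {lam W s : E n → ℝ} {O : Set (E n)} {y z : E n}

/-- the derivative along `∇λ` -/
def dl (lam s : E n → ℝ) (z : E n) : ℝ := ∑ k, Stmt.pd k lam z * Stmt.pd k s z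

/-- the trace of `P` -/
def s1 (lam W : E n → ℝ) (z : E n) : ℝ :=
  wa lam W z + W z * lapL lam z + W z * wa lam W z / 2

/-- `P(∇λ, ∇λ)` -/
def s2 (lam W : E n → ℝ) (z : E n) : ℝ := wa lam W z * (1 + W z / 2)

/-- the squared length of the second fundamental form of the leaf in Euclidean space -/
def qq (lam : E n → ℝ) (z : E n) : ℝ :=
  ∑ i, ∑ j, Stmt.pd i (Stmt.pd j lam) z * Stmt.pd i (Stmt.pd j lam) z

namespace Lf

variable (hL : Lf h lam W O)
include hL

lemma upc (hz : z ∈ O) (X : Fin n → Fin n → ℝ) : ∑ i, ∑ j, Stmt.up h i j z * X i j =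
    ∑ i, X i i - (1 - 1 / (1 + W z)) *
      ∑ i, ∑ j, Stmt.pd i lam z * Stmt.pd j lam z * X i j := by
  simp only [hL.up_eq hz]
  have e1 : ∀ i j, ((if i = j then 1 else 0) -
      (1 - 1 / (1 + W z)) * Stmt.pd i lam z * Stmt.pd j lam z) * X i j =
      (if i = j then X i j else 0) - (1 - 1 / (1 + W z)) *
        (Stmt.pd i lam z * Stmt.pd j lam z * X i j) := by
    intro i j; split_ifs <;> ring
  simp only [e1, Finset.sum_sub_distrib, ← Finset.mul_sum]
  simp

lemma cr_wa : CR 4 O (wa lam W) := CR.sum _ fun l => (hL.sW1 l).mul (hL.sL1 l)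

lemma cr_lap : CR 3 O (lapL lam) := CR.sum _ fun i => hL.sL2 i i

lemma cr_s1 : CR 1 O (s1 lam W) := by
  have e : s1 lam W = fun z => wa lam W z + W z * lapL lam z + W z * wa lam W z * (1 / 2) := by
    funext z; unfold s1; ring
  rw [e]
  exact ((hL.cr_wa.le (by norm_num)).add ((hL.sW.le (by norm_num)).mul
    (hL.cr_lap.le (by norm_num)))).add (((hL.sW.le (by norm_num)).mul
    (hL.cr_wa.le (by norm_num))).mul (CR.const _))

lemma cr_s2 : CR 1 O (s2 lam W) := by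
  have e : s2 lam W = fun z => wa lam W z * (1 + W z * (1 / 2)) := by
    funext z; unfold s2; ring
  rw [e]
  exact (hL.cr_wa.le (by norm_num)).mul ((CR.const _).add ((hL.sW.le (by norm_num)).mul
    (CR.const _)))

lemma dl_lap (hz : z ∈ O) : dl lam (lapL lam) z = -qq lam z := hL.lap' hz

lemma pd_wa (hz : z ∈ O) (k : Fin n) : Stmt.pd k (wa lam W) z =
    ∑ l, (Stmt.pd k (Stmt.pd l W) z * Stmt.pd l lam z +
      Stmt.pd l W z * Stmt.pd k (Stmt.pd l lam) z) := by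
  have h1 : HP k (fun y => ∑ l, Stmt.pd l W y * Stmt.pd l lam y) _ z :=
    HP.sum _ fun l _ => (CR.hp ((hL.sW1 l).le (by norm_num : 0 + 1 ≤ 4)) hz k).mul
      (CR.hp ((hL.sL1 l).le (by norm_num : 0 + 1 ≤ 4)) hz k)
  exact h1.pd

lemma dl_wa (hz : z ∈ O) : dl lam (wa lam W) z =
    ∑ k, ∑ l, Stmt.pd k lam z * Stmt.pd l lam z * Stmt.pd k (Stmt.pd l W) z := by
  unfold dl
  simp only [hL.pd_wa hz, Finset.mul_sum, mul_add, Finset.sum_add_distrib]
  have h1 : ∑ k, ∑ l, Stmt.pd k lam z * (Stmt.pd l W z * Stmt.pd k (Stmt.pd l lam) z) = 0 := by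
    rw [Finset.sum_comm]
    refine Finset.sum_eq_zero fun l _ => ?_
    have e : ∑ k, Stmt.pd k lam z * (Stmt.pd l W z * Stmt.pd k (Stmt.pd l lam) z) =
        Stmt.pd l W z * ∑ k, Stmt.pd l (Stmt.pd k lam) z * Stmt.pd k lam z := by
      rw [Finset.mul_sum]
      exact Finset.sum_congr rfl fun k _ => by rw [hL.bsym hz k l]; ring
    rw [e, hL.bz hz l, mul_zero]
  rw [h1, add_zero]
  exact Finset.sum_congr rfl fun k _ => Finset.sum_congr rfl fun l _ => by ring

lemma hpW (hz : z ∈ O) (k : Fin n) : HP k W (Stmt.pd k W z) z :=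
  CR.hp (hL.sW.le (by norm_num : 0 + 1 ≤ 5)) hz k

lemma hpwa (hz : z ∈ O) (k : Fin n) : HP k (wa lam W) (Stmt.pd k (wa lam W) z) z :=
  CR.hp (hL.cr_wa.le (by norm_num : 0 + 1 ≤ 4)) hz k

lemma hplap (hz : z ∈ O) (k : Fin n) : HP k (lapL lam) (Stmt.pd k (lapL lam) z) z :=
  CR.hp (hL.cr_lap.le (by norm_num : 0 + 1 ≤ 3)) hz k

lemma dl_s1 (hz : z ∈ O) : dl lam (s1 lam W) z = dl lam (wa lam W) z +
    wa lam W z * lapL lam z - W z * qq lam z + wa lam W z ^ 2 / 2 +
      W z * dl lam (wa lam W) z / 2 := by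
  have h1 : ∀ k, Stmt.pd k (s1 lam W) z = Stmt.pd k (wa lam W) z +
      (Stmt.pd k W z * lapL lam z + W z * Stmt.pd k (lapL lam) z) +
      1 / 2 * (Stmt.pd k W z * wa lam W z + W z * Stmt.pd k (wa lam W) z) := by
    intro k
    have g : HP k (s1 lam W) _ z := (((hL.hpwa hz k).add ((hL.hpW hz k).mul
      (hL.hplap hz k))).add (((hL.hpW hz k).mul (hL.hpwa hz k)).const_mul (1 / 2))).congr
        (Eventually.of_forall fun y => by
          show s1 lam W y = _
          unfold s1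
          ring)
    exact g.pd
  have h2 : wa lam W z = ∑ k, Stmt.pd k lam z * Stmt.pd k W z := (w_a lam W z).symm
  have h3 := hL.dl_lap hz
  unfold dl at h3 ⊢
  simp only [h1]
  have e : ∀ k, Stmt.pd k lam z * (Stmt.pd k (wa lam W) z +
      (Stmt.pd k W z * lapL lam z + W z * Stmt.pd k (lapL lam) z) +
      1 / 2 * (Stmt.pd k W z * wa lam W z + W z * Stmt.pd k (wa lam W) z)) =
      (1 + W z / 2) * (Stmt.pd k lam z * Stmt.pd k (wa lam W) z) +
      (lapL lam z + wa lam W z / 2) * (Stmt.pd k lam z * Stmt.pd k W z) +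
      W z * (Stmt.pd k lam z * Stmt.pd k (lapL lam) z) := fun k => by ring
  simp only [e, Finset.sum_add_distrib, ← Finset.mul_sum, h3, ← h2]
  ring

lemma dl_s2 (hz : z ∈ O) : dl lam (s2 lam W) z =
    dl lam (wa lam W) z * (1 + W z / 2) + wa lam W z ^ 2 / 2 := by
  have h1 : ∀ k, Stmt.pd k (s2 lam W) z = Stmt.pd k (wa lam W) z +
      1 / 2 * (Stmt.pd k W z * wa lam W z + W z * Stmt.pd k (wa lam W) z) := by
    intro k
    have g : HP k (s2 lam W) _ z := ((hL.hpwa hz k).add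
      (((hL.hpW hz k).mul (hL.hpwa hz k)).const_mul (1 / 2))).congr
        (Eventually.of_forall fun y => by
          show s2 lam W y = _
          unfold s2
          ring)
    exact g.pd
  have h2 : wa lam W z = ∑ k, Stmt.pd k lam z * Stmt.pd k W z := (w_a lam W z).symm
  unfold dl
  simp only [h1]
  have e : ∀ k, Stmt.pd k lam z * (Stmt.pd k (wa lam W) z +
      1 / 2 * (Stmt.pd k W z * wa lam W z + W z * Stmt.pd k (wa lam W) z)) =
      (1 + W z / 2) * (Stmt.pd k lam z * Stmt.pd k (wa lam W) z) +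
      (wa lam W z / 2) * (Stmt.pd k lam z * Stmt.pd k W z) := fun k => by ring
  simp only [e, Finset.sum_add_distrib, ← Finset.mul_sum, ← h2]
  ring

/-- the derivative of `1 / (1 + W)` -/
lemma hp_rho (hz : z ∈ O) (k : Fin n) : HP k (fun y => 1 / (1 + W y))
    (-(1 / (1 + W z)) ^ 2 * Stmt.pd k W z) z := by
  have hp := (hL.pos z hz).ne'
  have h2 : HP k (fun y => 1 + W y) (0 + Stmt.pd k W z) z := (HP.const k 1 z).add (hL.hpW hz k)
  rw [zero_add] at h2
  unfold HP HasLineDerivAt at h2 ⊢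
  have h3 := HasDerivAt.fun_inv h2 (by simpa using hp)
  have e : -Stmt.pd k W z / (1 + W (z + (0 : ℝ) • EuclideanSpace.single k (1 : ℝ))) ^ 2 =
      -(1 / (1 + W z)) ^ 2 * Stmt.pd k W z := by
    rw [zero_smul, add_zero]
    field_simp
  rw [e] at h3
  simp only [one_div]
  simp only [one_div] at h3
  exact h3

/-- the derivative of `ρ s λ_k - ½ W_k` -/
lemma hp_dv (hs : CR 1 O s) (hz : z ∈ O) (k l : Fin n) :
    HP l (fun y => 1 / (1 + W y) * Stmt.pd k lam y * s y - 1 / 2 * Stmt.pd k W y)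
      ((-(1 / (1 + W z)) ^ 2 * Stmt.pd l W z * Stmt.pd k lam z +
        1 / (1 + W z) * Stmt.pd l (Stmt.pd k lam) z) * s z +
        1 / (1 + W z) * Stmt.pd k lam z * Stmt.pd l s z -
        1 / 2 * Stmt.pd l (Stmt.pd k W) z) z :=
  (((hL.hp_rho hz l).mul (CR.hp ((hL.sL1 k).le (by norm_num : 0 + 1 ≤ 4)) hz l)).mul
    (CR.hp hs hz l)).sub ((CR.hp ((hL.sW1 k).le (by norm_num : 0 + 1 ≤ 4)) hz l).const_mul _)

lemma dv (hs : CR 1 O s) (hz : z ∈ O) :
    ∑ k, Stmt.pd k (fun y => 1 / (1 + W y) * Stmt.pd k lam y * s y -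
      1 / 2 * Stmt.pd k W y) z =
    1 / (1 + W z) * lapL lam z * s z + 1 / (1 + W z) * dl lam s z -
      (1 / (1 + W z)) ^ 2 * wa lam W z * s z - lapL W z / 2 := by
  have h1 : ∀ k, Stmt.pd k (fun y => 1 / (1 + W y) * Stmt.pd k lam y * s y -
      1 / 2 * Stmt.pd k W y) z =
      1 / (1 + W z) * s z * Stmt.pd k (Stmt.pd k lam) z +
      1 / (1 + W z) * (Stmt.pd k lam z * Stmt.pd k s z) -
      (1 / (1 + W z)) ^ 2 * s z * (Stmt.pd k W z * Stmt.pd k lam z) -
      1 / 2 * Stmt.pd k (Stmt.pd k W) z := by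
    intro k
    rw [(hL.hp_dv hs hz k k).pd]
    ring
  simp only [h1, Finset.sum_add_distrib, Finset.sum_sub_distrib, ← Finset.mul_sum]
  unfold lapL dl wa
  ring

lemma V1 (hz : z ∈ O) (k : Fin n) : ∑ i, Stmt.chr h k i i z =
    1 / (1 + W z) * Stmt.pd k lam z * s1 lam W z - 1 / 2 * Stmt.pd k W z := by
  simp only [hL.chr_eq hz]
  have e : ∀ i, 1 / (1 + W z) * Stmt.pd k lam z * PP lam W i i z -
      Stmt.pd i lam z * Stmt.pd i lam z * Stmt.pd k W z / 2 =
      1 / (1 + W z) * Stmt.pd k lam z * (Stmt.pd i W z * Stmt.pd i lam z) +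
      1 / (1 + W z) * Stmt.pd k lam z * W z * Stmt.pd i (Stmt.pd i lam) z +
      (1 / (1 + W z) * Stmt.pd k lam z * (W z * wa lam W z / 2) - Stmt.pd k W z / 2) *
        (Stmt.pd i lam z * Stmt.pd i lam z) := by
    intro i
    unfold PP
    ring
  simp only [e, Finset.sum_add_distrib, ← Finset.mul_sum, hL.un z hz]
  unfold s1
  rw [show ∑ j, Stmt.pd j W z * Stmt.pd j lam z = wa lam W z from rfl,
    show ∑ j, Stmt.pd j (Stmt.pd j lam) z = lapL lam z from rfl]
  ring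

lemma a_pp (hz : z ∈ O) : ∑ i, Stmt.pd i lam z * pp lam W i z = s2 lam W z := by
  have e : ∀ i, Stmt.pd i lam z * pp lam W i z = 1 / 2 * (Stmt.pd i W z * Stmt.pd i lam z) +
      (1 + W z) * wa lam W z / 2 * (Stmt.pd i lam z * Stmt.pd i lam z) := by
    intro i
    unfold pp
    ring
  simp only [e, Finset.sum_add_distrib, ← Finset.mul_sum, hL.un z hz]
  unfold s2
  rw [show ∑ j, Stmt.pd j W z * Stmt.pd j lam z = wa lam W z from rfl]
  ring

lemma V2a (hz : z ∈ O) (k i : Fin n) : ∑ j, Stmt.pd j lam z * Stmt.chr h k i j z =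
    1 / (1 + W z) * Stmt.pd k lam z * pp lam W i z -
      1 / 2 * Stmt.pd i lam z * Stmt.pd k W z := by
  simp only [hL.chr_eq hz]
  have e : ∀ j, Stmt.pd j lam z * (1 / (1 + W z) * Stmt.pd k lam z * PP lam W i j z -
      Stmt.pd i lam z * Stmt.pd j lam z * Stmt.pd k W z / 2) =
      1 / (1 + W z) * Stmt.pd k lam z * (PP lam W i j z * Stmt.pd j lam z) -
      1 / 2 * Stmt.pd i lam z * Stmt.pd k W z *
        (Stmt.pd j lam z * Stmt.pd j lam z) := by
    intro j
    ring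
  simp only [e, Finset.sum_sub_distrib, ← Finset.mul_sum, hL.un z hz, hL.PP_a hz i]
  ring

lemma V2 (hz : z ∈ O) (k : Fin n) :
    ∑ i, ∑ j, Stmt.pd i lam z * Stmt.pd j lam z * Stmt.chr h k i j z =
    1 / (1 + W z) * Stmt.pd k lam z * s2 lam W z - 1 / 2 * Stmt.pd k W z := by
  have e : ∀ i, ∑ j, Stmt.pd i lam z * Stmt.pd j lam z * Stmt.chr h k i j z =
      1 / (1 + W z) * Stmt.pd k lam z * (Stmt.pd i lam z * pp lam W i z) -
        1 / 2 * Stmt.pd k W z * (Stmt.pd i lam z * Stmt.pd i lam z) := by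
    intro i
    have := hL.V2a hz k i
    simp only [mul_assoc, ← Finset.mul_sum] at this ⊢
    rw [this]
    ring
  simp only [e, Finset.sum_sub_distrib, ← Finset.mul_sum, hL.un z hz, hL.a_pp hz]
  ring

lemma dV1 (hz : z ∈ O) : ∑ i, ∑ k, Stmt.pd k (Stmt.chr h k i i) z =
    1 / (1 + W z) * lapL lam z * s1 lam W z + 1 / (1 + W z) * dl lam (s1 lam W) z -
      (1 / (1 + W z)) ^ 2 * wa lam W z * s1 lam W z - lapL W z / 2 := by
  rw [← hL.dv hL.cr_s1 hz, Finset.sum_comm]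
  refine Finset.sum_congr rfl fun k _ => ?_
  have h1 : HP k (fun y => ∑ i, Stmt.chr h k i i y) _ z :=
    HP.sum _ fun i _ => hL.M.hp_chr hz k k i i
  rw [← h1.pd]
  exact pd_congrU hL.op hz (fun y hy => hL.V1 hy k) k

lemma dV2 (hz : z ∈ O) :
    ∑ i, ∑ j, Stmt.pd i lam z * Stmt.pd j lam z * ∑ k, Stmt.pd k (Stmt.chr h k i j) z =
    1 / (1 + W z) * lapL lam z * s2 lam W z + 1 / (1 + W z) * dl lam (s2 lam W) z -
      (1 / (1 + W z)) ^ 2 * wa lam W z * s2 lam W z - lapL W z / 2 := by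
  rw [← hL.dv hL.cr_s2 hz]
  have h1 : ∀ k, Stmt.pd k (fun y => 1 / (1 + W y) * Stmt.pd k lam y * s2 lam W y -
      1 / 2 * Stmt.pd k W y) z =
      ∑ i, ∑ j, ((Stmt.pd k (Stmt.pd i lam) z * Stmt.pd j lam z +
        Stmt.pd i lam z * Stmt.pd k (Stmt.pd j lam) z) * Stmt.chr h k i j z +
        Stmt.pd i lam z * Stmt.pd j lam z * Stmt.pd k (Stmt.chr h k i j) z) := by
    intro k
    have g : HP k (fun y => ∑ i, ∑ j, Stmt.pd i lam y * Stmt.pd j lam y *
        Stmt.chr h k i j y) _ z :=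
      HP.sum _ fun i _ => HP.sum _ fun j _ =>
        ((CR.hp ((hL.sL1 i).le (by norm_num : 0 + 1 ≤ 4)) hz k).mul
          (CR.hp ((hL.sL1 j).le (by norm_num : 0 + 1 ≤ 4)) hz k)).mul (hL.M.hp_chr hz k k i j)
    rw [← g.pd]
    exact pd_congrU hL.op hz (fun y hy => (hL.V2 hy k).symm) k
  simp only [h1, Finset.sum_add_distrib, add_mul]
  have z1 : ∑ k, ∑ i, ∑ j, Stmt.pd k (Stmt.pd i lam) z * Stmt.pd j lam z *
      Stmt.chr h k i j z = 0 := by
    have e : ∀ k i, ∑ j, Stmt.pd k (Stmt.pd i lam) z * Stmt.pd j lam z *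
        Stmt.chr h k i j z =
        1 / (1 + W z) * pp lam W i z * (Stmt.pd i (Stmt.pd k lam) z * Stmt.pd k lam z) -
        1 / 2 * Stmt.pd k W z * (Stmt.pd k (Stmt.pd i lam) z * Stmt.pd i lam z) := by
      intro k i
      have := hL.V2a hz k i
      simp only [mul_assoc, ← Finset.mul_sum] at this ⊢
      rw [this, hL.bsym hz k i]
      ring
    simp only [e, Finset.sum_sub_distrib]
    rw [Finset.sum_comm]
    simp only [← Finset.mul_sum, hL.bz hz]
    simp
  have z2 : ∑ k, ∑ i, ∑ j, Stmt.pd i lam z * Stmt.pd k (Stmt.pd j lam) z *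
      Stmt.chr h k i j z = 0 := by
    rw [← z1]
    refine Finset.sum_congr rfl fun k _ => ?_
    rw [Finset.sum_comm]
    refine Finset.sum_congr rfl fun i _ => Finset.sum_congr rfl fun j _ => ?_
    rw [hL.M.chr_symm hz k i j]
    ring
  rw [z1, z2, zero_add, zero_add]
  calc ∑ i, ∑ j, Stmt.pd i lam z * Stmt.pd j lam z * ∑ k, Stmt.pd k (Stmt.chr h k i j) z
      = ∑ i, ∑ j, ∑ k, Stmt.pd i lam z * Stmt.pd j lam z * Stmt.pd k (Stmt.chr h k i j) z :=
        Finset.sum_congr rfl fun i _ => Finset.sum_congr rfl fun j _ => by rw [Finset.mul_sum]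
    _ = ∑ i, ∑ k, ∑ j, Stmt.pd i lam z * Stmt.pd j lam z * Stmt.pd k (Stmt.chr h k i j) z :=
        Finset.sum_congr rfl fun i _ => Finset.sum_comm
    _ = _ := Finset.sum_comm

/-- the trace part -/
lemma dT (hz : z ∈ O) (i j : Fin n) : ∑ k, Stmt.pd j (Stmt.chr h k i k) z =
    1 / 2 * (1 / (1 + W z) * Stmt.pd j (Stmt.pd i W) z -
      (1 / (1 + W z)) ^ 2 * Stmt.pd i W z * Stmt.pd j W z) := by
  have h1 : HP j (fun y => ∑ k, Stmt.chr h k i k y) _ z :=
    HP.sum _ fun k _ => hL.M.hp_chr hz j k i k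
  rw [← h1.pd]
  have h2 : HP j (fun y => 1 / 2 * (1 / (1 + W y) * Stmt.pd i W y)) _ z :=
    ((hL.hp_rho hz j).mul (CR.hp ((hL.sW1 i).le (by norm_num : 0 + 1 ≤ 4)) hz j)).const_mul _
  rw [pd_congrU hL.op hz (fun y hy => (hL.chr_tr hy i).trans (by ring :
    _ = 1 / 2 * (1 / (1 + W y) * Stmt.pd i W y))) j, h2.pd]
  ring

lemma ppsq (hz : z ∈ O) : ∑ i, pp lam W i z * pp lam W i z =
    (∑ i, Stmt.pd i W z * Stmt.pd i W z) / 4 + (1 + W z) * wa lam W z ^ 2 / 2 +
      (1 + W z) ^ 2 * wa lam W z ^ 2 / 4 := by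
  have e : ∀ i, pp lam W i z * pp lam W i z = 1 / 4 * (Stmt.pd i W z * Stmt.pd i W z) +
      (1 + W z) * wa lam W z / 2 * (Stmt.pd i W z * Stmt.pd i lam z) +
      (1 + W z) ^ 2 * wa lam W z ^ 2 / 4 * (Stmt.pd i lam z * Stmt.pd i lam z) := by
    intro i
    unfold pp
    ring
  simp only [e, Finset.sum_add_distrib, ← Finset.mul_sum, hL.un z hz]
  rw [show ∑ j, Stmt.pd j W z * Stmt.pd j lam z = wa lam W z from rfl]
  ring

lemma wpp (hz : z ∈ O) : ∑ i, Stmt.pd i W z * pp lam W i z =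
    (∑ i, Stmt.pd i W z * Stmt.pd i W z) / 2 + (1 + W z) * wa lam W z ^ 2 / 2 := by
  have e : ∀ i, Stmt.pd i W z * pp lam W i z = 1 / 2 * (Stmt.pd i W z * Stmt.pd i W z) +
      (1 + W z) * wa lam W z / 2 * (Stmt.pd i W z * Stmt.pd i lam z) := by
    intro i
    unfold pp
    ring
  simp only [e, Finset.sum_add_distrib, ← Finset.mul_sum]
  rw [show ∑ j, Stmt.pd j W z * Stmt.pd j lam z = wa lam W z from rfl]
  ring

/-- the product of the Christoffel symbols -/
lemma M_eq (hz : z ∈ O) (i j : Fin n) :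
    ∑ k, ∑ l, Stmt.chr h k j l z * Stmt.chr h l i k z =
    (1 / (1 + W z)) ^ 2 * pp lam W i z * pp lam W j z -
      1 / 2 * (1 / (1 + W z)) * (Stmt.pd i lam z * ∑ l, PP lam W j l z * Stmt.pd l W z +
        Stmt.pd j lam z * ∑ l, PP lam W i l z * Stmt.pd l W z) +
      1 / 4 * wa lam W z ^ 2 * Stmt.pd i lam z * Stmt.pd j lam z := by
  simp only [hL.chr_eq hz]
  have e : ∀ k l, (1 / (1 + W z) * Stmt.pd k lam z * PP lam W j l z -
      Stmt.pd j lam z * Stmt.pd l lam z * Stmt.pd k W z / 2) *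
      (1 / (1 + W z) * Stmt.pd l lam z * PP lam W i k z -
      Stmt.pd i lam z * Stmt.pd k lam z * Stmt.pd l W z / 2) =
      (1 / (1 + W z)) ^ 2 * (PP lam W i k z * Stmt.pd k lam z) *
        (PP lam W j l z * Stmt.pd l lam z) -
      1 / 2 * (1 / (1 + W z)) * Stmt.pd i lam z * (Stmt.pd k lam z * Stmt.pd k lam z) *
        (PP lam W j l z * Stmt.pd l W z) -
      1 / 2 * (1 / (1 + W z)) * Stmt.pd j lam z * (PP lam W i k z * Stmt.pd k W z) *
        (Stmt.pd l lam z * Stmt.pd l lam z) +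
      1 / 4 * Stmt.pd i lam z * Stmt.pd j lam z * (Stmt.pd k W z * Stmt.pd k lam z) *
        (Stmt.pd l W z * Stmt.pd l lam z) := fun k l => by ring
  simp only [e, Finset.sum_add_distrib, Finset.sum_sub_distrib, ← Finset.mul_sum,
    ← Finset.sum_mul, hL.un z hz, hL.PP_a hz]
  rw [show ∑ j, Stmt.pd j W z * Stmt.pd j lam z = wa lam W z from rfl]
  ring

lemma PPw (hz : z ∈ O) : ∑ i, Stmt.pd i lam z * ∑ l, PP lam W i l z * Stmt.pd l W z =
    (∑ i, Stmt.pd i W z * Stmt.pd i W z) / 2 + (1 + W z) * wa lam W z ^ 2 / 2 := by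
  rw [← hL.wpp hz]
  simp only [Finset.mul_sum]
  rw [Finset.sum_comm]
  refine Finset.sum_congr rfl fun l _ => ?_
  rw [← hL.PP_a' hz l, Finset.mul_sum]
  exact Finset.sum_congr rfl fun i _ => by ring

/-- **The scalar curvature.** -/
theorem scal_eq (hz : z ∈ O) : Stmt.scal h z =
    (1 / (1 + W z) * lapL lam z * s1 lam W z + 1 / (1 + W z) * dl lam (s1 lam W) z -
      (1 / (1 + W z)) ^ 2 * wa lam W z * s1 lam W z - lapL W z / 2 -
    (1 - 1 / (1 + W z)) * (1 / (1 + W z) * lapL lam z * s2 lam W z +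
      1 / (1 + W z) * dl lam (s2 lam W) z -
      (1 / (1 + W z)) ^ 2 * wa lam W z * s2 lam W z - lapL W z / 2)) -
    (1 / 2 * (1 / (1 + W z) * lapL W z - (1 / (1 + W z)) ^ 2 *
      ∑ i, Stmt.pd i W z * Stmt.pd i W z) -
      (1 - 1 / (1 + W z)) * (1 / 2 * (1 / (1 + W z) * dl lam (wa lam W) z -
        (1 / (1 + W z)) ^ 2 * wa lam W z ^ 2))) +
    1 / 2 * (1 / (1 + W z)) * (1 / (1 + W z) * wa lam W z * (s1 lam W z -
      (1 - 1 / (1 + W z)) * s2 lam W z) - 1 / 2 * (1 / (1 + W z)) *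
        ∑ i, Stmt.pd i W z * Stmt.pd i W z) -
    (((1 / (1 + W z)) ^ 2 * ((∑ i, Stmt.pd i W z * Stmt.pd i W z) / 4 +
      (1 + W z) * wa lam W z ^ 2 / 2 + (1 + W z) ^ 2 * wa lam W z ^ 2 / 4) -
      1 / (1 + W z) * ((∑ i, Stmt.pd i W z * Stmt.pd i W z) / 2 +
        (1 + W z) * wa lam W z ^ 2 / 2) + 1 / 4 * wa lam W z ^ 2) -
      (1 - 1 / (1 + W z)) * ((1 / (1 + W z)) ^ 2 * s2 lam W z ^ 2 -
        1 / (1 + W z) * ((∑ i, Stmt.pd i W z * Stmt.pd i W z) / 2 +
        (1 + W z) * wa lam W z ^ 2 / 2) + 1 / 4 * wa lam W z ^ 2)) := by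
  have hp := (hL.pos z hz).ne'
  -- split
  have h0 : Stmt.scal h z =
      (∑ i, ∑ j, Stmt.up h i j z * ∑ k, Stmt.pd k (Stmt.chr h k i j) z) -
      (∑ i, ∑ j, Stmt.up h i j z * ∑ k, Stmt.pd j (Stmt.chr h k i k) z) +
      (∑ i, ∑ j, Stmt.up h i j z * ∑ k, ∑ l, Stmt.chr h k k l z * Stmt.chr h l i j z) -
      (∑ i, ∑ j, Stmt.up h i j z * ∑ k, ∑ l, Stmt.chr h k j l z * Stmt.chr h l i k z) := by
    unfold Stmt.scal
    simp only [← Finset.sum_sub_distrib, ← Finset.sum_add_distrib]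
    refine Finset.sum_congr rfl fun i _ => Finset.sum_congr rfl fun j _ => ?_
    simp only [Finset.sum_sub_distrib, Finset.sum_add_distrib]
    ring
  rw [h0]
  clear h0
  congr 1
  · congr 1
    · congr 1
      · rw [hL.upc hz, hL.dV1 hz, hL.dV2 hz]
      · simp only [hL.dT hz]
        rw [hL.upc hz, hL.dl_wa hz]
        have e1 : ∑ i, 1 / 2 * (1 / (1 + W z) * Stmt.pd i (Stmt.pd i W) z -
            (1 / (1 + W z)) ^ 2 * Stmt.pd i W z * Stmt.pd i W z) =
            1 / 2 * (1 / (1 + W z) * lapL W z - (1 / (1 + W z)) ^ 2 *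
              ∑ i, Stmt.pd i W z * Stmt.pd i W z) := by
          unfold lapL
          rw [← Finset.mul_sum, Finset.sum_sub_distrib, ← Finset.mul_sum]
          congr 2
          rw [Finset.mul_sum]
          exact Finset.sum_congr rfl fun i _ => by ring
        have e2 : ∑ i, ∑ j, Stmt.pd i lam z * Stmt.pd j lam z *
            (1 / 2 * (1 / (1 + W z) * Stmt.pd j (Stmt.pd i W) z -
            (1 / (1 + W z)) ^ 2 * Stmt.pd i W z * Stmt.pd j W z)) =
            1 / 2 * (1 / (1 + W z) * (∑ k, ∑ l, Stmt.pd k lam z * Stmt.pd l lam z *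
              Stmt.pd k (Stmt.pd l W) z) - (1 / (1 + W z)) ^ 2 * wa lam W z ^ 2) := by
          have g : ∀ i j, Stmt.pd i lam z * Stmt.pd j lam z *
              (1 / 2 * (1 / (1 + W z) * Stmt.pd j (Stmt.pd i W) z -
              (1 / (1 + W z)) ^ 2 * Stmt.pd i W z * Stmt.pd j W z)) =
              1 / 2 * (1 / (1 + W z)) * (Stmt.pd j lam z * Stmt.pd i lam z *
                Stmt.pd j (Stmt.pd i W) z) -
              1 / 2 * (1 / (1 + W z)) ^ 2 * ((Stmt.pd i W z * Stmt.pd i lam z) *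
                (Stmt.pd j W z * Stmt.pd j lam z)) := fun i j => by ring
          simp only [g, Finset.sum_sub_distrib, ← Finset.mul_sum, ← Finset.sum_mul]
          rw [Finset.sum_comm]
          rw [show ∑ j, Stmt.pd j W z * Stmt.pd j lam z = wa lam W z from rfl]
          ring
        rw [e1, e2]
    · have e0 : ∀ i j, ∑ k, ∑ l, Stmt.chr h k k l z * Stmt.chr h l i j z =
          ∑ l, 1 / 2 * (1 / (1 + W z)) * Stmt.pd l W z * Stmt.chr h l i j z := by
        intro i j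
        rw [Finset.sum_comm]
        refine Finset.sum_congr rfl fun l _ => ?_
        rw [← Finset.sum_mul]
        congr 1
        have := hL.chr_tr hz l
        rw [show ∑ k, Stmt.chr h k k l z = ∑ m, Stmt.chr h m l m z from
          Finset.sum_congr rfl fun k _ => hL.M.chr_symm hz k k l, this]
        ring
      simp only [e0]
      rw [hL.upc hz]
      have e1 : ∑ i, ∑ l, 1 / 2 * (1 / (1 + W z)) * Stmt.pd l W z * Stmt.chr h l i i z =
          ∑ l, 1 / 2 * (1 / (1 + W z)) * Stmt.pd l W z * (1 / (1 + W z) * Stmt.pd l lam z *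
            s1 lam W z - 1 / 2 * Stmt.pd l W z) := by
        rw [Finset.sum_comm]
        refine Finset.sum_congr rfl fun l _ => ?_
        rw [← Finset.mul_sum, hL.V1 hz l]
      have e2 : ∑ i, ∑ j, Stmt.pd i lam z * Stmt.pd j lam z *
          ∑ l, 1 / 2 * (1 / (1 + W z)) * Stmt.pd l W z * Stmt.chr h l i j z =
          ∑ l, 1 / 2 * (1 / (1 + W z)) * Stmt.pd l W z * (1 / (1 + W z) * Stmt.pd l lam z *
            s2 lam W z - 1 / 2 * Stmt.pd l W z) := by
        simp only [← hL.V2 hz, Finset.mul_sum]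
        calc _ = ∑ i, ∑ l, ∑ j, Stmt.pd i lam z * Stmt.pd j lam z *
              (1 / 2 * (1 / (1 + W z)) * Stmt.pd l W z * Stmt.chr h l i j z) :=
              Finset.sum_congr rfl fun i _ => Finset.sum_comm
          _ = ∑ l, ∑ i, ∑ j, Stmt.pd i lam z * Stmt.pd j lam z *
              (1 / 2 * (1 / (1 + W z)) * Stmt.pd l W z * Stmt.chr h l i j z) :=
              Finset.sum_comm
          _ = _ := Finset.sum_congr rfl fun l _ => Finset.sum_congr rfl fun i _ =>
              Finset.sum_congr rfl fun j _ => by ring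
      have e3 : ∀ s : ℝ, ∑ l, 1 / 2 * (1 / (1 + W z)) * Stmt.pd l W z *
          (1 / (1 + W z) * Stmt.pd l lam z * s - 1 / 2 * Stmt.pd l W z) =
          1 / 2 * (1 / (1 + W z)) * (1 / (1 + W z) * wa lam W z * s -
            1 / 2 * ∑ i, Stmt.pd i W z * Stmt.pd i W z) := by
        intro s
        have g : ∀ l, 1 / 2 * (1 / (1 + W z)) * Stmt.pd l W z *
            (1 / (1 + W z) * Stmt.pd l lam z * s - 1 / 2 * Stmt.pd l W z) =
            1 / 2 * (1 / (1 + W z)) * (1 / (1 + W z)) * s * (Stmt.pd l W z * Stmt.pd l lam z) -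
            1 / 2 * (1 / (1 + W z)) * (1 / 2) * (Stmt.pd l W z * Stmt.pd l W z) :=
          fun l => by ring
        simp only [g, Finset.sum_sub_distrib, ← Finset.mul_sum]
        rw [show ∑ j, Stmt.pd j W z * Stmt.pd j lam z = wa lam W z from rfl]
        ring
      rw [e1, e2, e3, e3]
      ring
  · simp only [hL.M_eq hz]
    rw [hL.upc hz]
    have e1 : ∑ i, ((1 / (1 + W z)) ^ 2 * pp lam W i z * pp lam W i z -
        1 / 2 * (1 / (1 + W z)) * (Stmt.pd i lam z * ∑ l, PP lam W i l z * Stmt.pd l W z +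
        Stmt.pd i lam z * ∑ l, PP lam W i l z * Stmt.pd l W z) +
        1 / 4 * wa lam W z ^ 2 * Stmt.pd i lam z * Stmt.pd i lam z) =
        (1 / (1 + W z)) ^ 2 * ((∑ i, Stmt.pd i W z * Stmt.pd i W z) / 4 +
      (1 + W z) * wa lam W z ^ 2 / 2 + (1 + W z) ^ 2 * wa lam W z ^ 2 / 4) -
      1 / (1 + W z) * ((∑ i, Stmt.pd i W z * Stmt.pd i W z) / 2 +
        (1 + W z) * wa lam W z ^ 2 / 2) + 1 / 4 * wa lam W z ^ 2 := by
      rw [← hL.ppsq hz, ← hL.PPw hz]
      have g : ∀ i, (1 / (1 + W z)) ^ 2 * pp lam W i z * pp lam W i z -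
        1 / 2 * (1 / (1 + W z)) * (Stmt.pd i lam z * ∑ l, PP lam W i l z * Stmt.pd l W z +
        Stmt.pd i lam z * ∑ l, PP lam W i l z * Stmt.pd l W z) +
        1 / 4 * wa lam W z ^ 2 * Stmt.pd i lam z * Stmt.pd i lam z =
        (1 / (1 + W z)) ^ 2 * (pp lam W i z * pp lam W i z) -
        1 / (1 + W z) * (Stmt.pd i lam z * ∑ l, PP lam W i l z * Stmt.pd l W z) +
        1 / 4 * wa lam W z ^ 2 * (Stmt.pd i lam z * Stmt.pd i lam z) := fun i => by ring
      simp only [g, Finset.sum_add_distrib, Finset.sum_sub_distrib]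
      rw [← Finset.mul_sum, ← Finset.mul_sum, ← Finset.mul_sum, hL.un z hz]
      ring
    have e2 : ∑ i, ∑ j, Stmt.pd i lam z * Stmt.pd j lam z *
        ((1 / (1 + W z)) ^ 2 * pp lam W i z * pp lam W j z -
        1 / 2 * (1 / (1 + W z)) * (Stmt.pd i lam z * ∑ l, PP lam W j l z * Stmt.pd l W z +
        Stmt.pd j lam z * ∑ l, PP lam W i l z * Stmt.pd l W z) +
        1 / 4 * wa lam W z ^ 2 * Stmt.pd i lam z * Stmt.pd j lam z) =
        (1 / (1 + W z)) ^ 2 * s2 lam W z ^ 2 -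
        1 / (1 + W z) * ((∑ i, Stmt.pd i W z * Stmt.pd i W z) / 2 +
        (1 + W z) * wa lam W z ^ 2 / 2) + 1 / 4 * wa lam W z ^ 2 := by
      rw [← hL.a_pp hz, ← hL.PPw hz]
      have g : ∀ i j, Stmt.pd i lam z * Stmt.pd j lam z *
        ((1 / (1 + W z)) ^ 2 * pp lam W i z * pp lam W j z -
        1 / 2 * (1 / (1 + W z)) * (Stmt.pd i lam z * ∑ l, PP lam W j l z * Stmt.pd l W z +
        Stmt.pd j lam z * ∑ l, PP lam W i l z * Stmt.pd l W z) +
        1 / 4 * wa lam W z ^ 2 * Stmt.pd i lam z * Stmt.pd j lam z) =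
        (1 / (1 + W z)) ^ 2 * (Stmt.pd i lam z * pp lam W i z) *
          (Stmt.pd j lam z * pp lam W j z) -
        1 / 2 * (1 / (1 + W z)) * (Stmt.pd i lam z * Stmt.pd i lam z) *
          (Stmt.pd j lam z * ∑ l, PP lam W j l z * Stmt.pd l W z) -
        1 / 2 * (1 / (1 + W z)) * (Stmt.pd i lam z * ∑ l, PP lam W i l z * Stmt.pd l W z) *
          (Stmt.pd j lam z * Stmt.pd j lam z) +
        1 / 4 * wa lam W z ^ 2 * (Stmt.pd i lam z * Stmt.pd i lam z) *
          (Stmt.pd j lam z * Stmt.pd j lam z) := fun i j => by ring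
      simp only [g, Finset.sum_add_distrib, Finset.sum_sub_distrib]
      generalize hv : (fun i => Stmt.pd i lam z * ∑ l, PP lam W i l z * Stmt.pd l W z) = v
      have hv' : ∀ i, Stmt.pd i lam z * ∑ l, PP lam W i l z * Stmt.pd l W z = v i :=
        fun i => congrFun hv i
      simp only [hv', ← Finset.mul_sum, ← Finset.sum_mul, hL.un z hz]
      ring
    rw [e1, e2]

/-- **The divergence of the metric part of the flux.** -/
theorem div_R (hz : z ∈ O) :
    ∑ i, Stmt.pd i (fun y => W y / (1 + W y) / 2 * lapL lam y * Stmt.pd i lam y -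
      acc lam W i y) z = Stmt.scal h z / 2 + ∑ i, acc lam W i z ^ 2 := by
  have hp := (hL.pos z hz).ne'
  have hs : CR 1 O fun y => 1 / 2 * (W y * lapL lam y + wa lam W y) :=
    (CR.const _).mul (((hL.sW.le (by norm_num)).mul (hL.cr_lap.le (by norm_num))).add
      (hL.cr_wa.le (by norm_num)))
  have hac : ∀ y ∈ O, ∀ i, acc lam W i y = 1 / (1 + W y) / 2 *
      (Stmt.pd i W y - wa lam W y * Stmt.pd i lam y) := by
    intro y hy i
    have hp := (hL.pos y hy).ne'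
    unfold acc grd
    rw [show ∑ j, Stmt.pd j W y * Stmt.pd j lam y = wa lam W y from rfl]
    field_simp
  have h1 : ∀ i, Stmt.pd i (fun y => W y / (1 + W y) / 2 * lapL lam y * Stmt.pd i lam y -
      acc lam W i y) z =
      ((-(1 / (1 + W z)) ^ 2 * Stmt.pd i W z * Stmt.pd i lam z +
        1 / (1 + W z) * Stmt.pd i (Stmt.pd i lam) z) *
          (1 / 2 * (W z * lapL lam z + wa lam W z)) +
        1 / (1 + W z) * Stmt.pd i lam z * (1 / 2 * ((Stmt.pd i W z * lapL lam z +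
          W z * Stmt.pd i (lapL lam) z) + Stmt.pd i (wa lam W) z))) -
      1 / 2 * (-(1 / (1 + W z)) ^ 2 * Stmt.pd i W z * Stmt.pd i W z +
        1 / (1 + W z) * Stmt.pd i (Stmt.pd i W) z) := by
    intro i
    have g1 : HP i (fun y => 1 / 2 * (W y * lapL lam y + wa lam W y)) _ z :=
      (((hL.hpW hz i).mul (hL.hplap hz i)).add (hL.hpwa hz i)).const_mul (1 / 2)
    have g2 : HP i (fun y => 1 / (1 + W y) * Stmt.pd i lam y *
        (1 / 2 * (W y * lapL lam y + wa lam W y)) -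
        1 / 2 * (1 / (1 + W y) * Stmt.pd i W y)) _ z :=
      ((((hL.hp_rho hz i).mul (CR.hp ((hL.sL1 i).le (by norm_num : 0 + 1 ≤ 4)) hz i)).mul
        g1)).sub (((hL.hp_rho hz i).mul
          (CR.hp ((hL.sW1 i).le (by norm_num : 0 + 1 ≤ 4)) hz i)).const_mul (1 / 2))
    rw [← g2.pd]
    refine pd_congrU hL.op hz (fun y hy => ?_) i
    rw [hac y hy i]
    ring
  simp only [h1]
  have e : ∀ i, ((-(1 / (1 + W z)) ^ 2 * Stmt.pd i W z * Stmt.pd i lam z +
        1 / (1 + W z) * Stmt.pd i (Stmt.pd i lam) z) *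
          (1 / 2 * (W z * lapL lam z + wa lam W z)) +
        1 / (1 + W z) * Stmt.pd i lam z * (1 / 2 * ((Stmt.pd i W z * lapL lam z +
          W z * Stmt.pd i (lapL lam) z) + Stmt.pd i (wa lam W) z))) -
      1 / 2 * (-(1 / (1 + W z)) ^ 2 * Stmt.pd i W z * Stmt.pd i W z +
        1 / (1 + W z) * Stmt.pd i (Stmt.pd i W) z) =
      (1 / (1 + W z) / 2 * lapL lam z - (1 / (1 + W z)) ^ 2 / 2 *
        (W z * lapL lam z + wa lam W z)) * (Stmt.pd i W z * Stmt.pd i lam z) +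
      1 / (1 + W z) / 2 * (W z * lapL lam z + wa lam W z) * Stmt.pd i (Stmt.pd i lam) z +
      1 / (1 + W z) / 2 * W z * (Stmt.pd i lam z * Stmt.pd i (lapL lam) z) +
      1 / (1 + W z) / 2 * (Stmt.pd i lam z * Stmt.pd i (wa lam W) z) +
      (1 / (1 + W z)) ^ 2 / 2 * (Stmt.pd i W z * Stmt.pd i W z) -
      1 / (1 + W z) / 2 * Stmt.pd i (Stmt.pd i W) z := fun i => by ring
  simp only [e, Finset.sum_add_distrib, Finset.sum_sub_distrib, ← Finset.mul_sum]
  have h2 : ∑ i, Stmt.pd i lam z * Stmt.pd i (lapL lam) z = -qq lam z := hL.dl_lap hz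
  have h3 : ∑ i, Stmt.pd i lam z * Stmt.pd i (wa lam W) z = dl lam (wa lam W) z := rfl
  have h4 : ∑ j, Stmt.pd j W z * Stmt.pd j lam z = wa lam W z := rfl
  have h5 : ∑ i, Stmt.pd i (Stmt.pd i lam) z = lapL lam z := rfl
  have h6 : ∑ i, Stmt.pd i (Stmt.pd i W) z = lapL W z := rfl
  have h7 : ∑ i, acc lam W i z ^ 2 = (1 / (1 + W z)) ^ 2 / 4 *
      (∑ i, Stmt.pd i W z * Stmt.pd i W z - wa lam W z ^ 2) := by
    have g : ∀ i, acc lam W i z ^ 2 = (1 / (1 + W z)) ^ 2 / 4 * (Stmt.pd i W z * Stmt.pd i W z) -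
        (1 / (1 + W z)) ^ 2 / 2 * wa lam W z * (Stmt.pd i W z * Stmt.pd i lam z) +
        (1 / (1 + W z)) ^ 2 / 4 * wa lam W z ^ 2 * (Stmt.pd i lam z * Stmt.pd i lam z) := by
      intro i
      rw [hac z hz i]
      ring
    simp only [g, Finset.sum_add_distrib, Finset.sum_sub_distrib, ← Finset.mul_sum,
      hL.un z hz, h4]
    ring
  rw [h2, h3, h4, h5, h6, h7, hL.scal_eq hz, hL.dl_s1 hz, hL.dl_s2 hz]
  unfold s1 s2
  generalize ∑ i, Stmt.pd i W z * Stmt.pd i W z = ww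
  generalize dl lam (wa lam W) z = w2
  generalize lapL W z = LW
  generalize lapL lam z = L
  generalize qq lam z = q
  generalize wa lam W z = u
  generalize W z = w at hp ⊢
  field_simp
  ring

end Lf

end Vale.Agent.P366.CL
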