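import Vale.Agent.P366.H353.CL.DivV
import Vale.Agent.P366.H353.CL.Scal
import Vale.Agent.P366.CL.X

/-! The divergence of the flux field, locally. -/

open MeasureTheory Metric Filter Topology Set
open scoped ContDiff

noncomputable section
namespace Vale.Agent.P366.CL
open Vale.Agent.P366.Stmt Vale.Agent.P366.T2 Vale.Agent.P366.GC
open Vale.Agent.P366.H896 (CR pd_comm pd_congrU)

variable {n : ℕ} {h K : Stmt.Field n} {lam W s : E n → ℝ} {O : Set (E n)} {y z : E n}

/-- the squared length of `σ` -/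
lemma sig_sum {a c : Fin n → ℝ} {K b : Fin n → Fin n → ℝ} {ν κ : ℝ} (ha : ∑ i, a i * a i = 1)
    (hc : ∀ i, ∑ j, K i j * a j = c i) (hc' : ∀ j, ∑ i, K i j * a i = c j)
    (hν : ∑ i, c i * a i = ν) (hb : ∀ i, ∑ j, b i j * a j = 0)
    (hb' : ∀ j, ∑ i, b i j * a i = 0) :
    ∑ i, ∑ j, (K i j - c i * a j - c j * a i + ν * a i * a j - κ * b i j) ^ 2 =
      ∑ i, ∑ j, K i j * K i j - 2 * ∑ i, c i * c i + ν ^ 2 - 2 * κ * ∑ i, ∑ j, K i j * b i j +
        κ ^ 2 * ∑ i, ∑ j, b i j * b i j := by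
  have e : ∀ i j, (K i j - c i * a j - c j * a i + ν * a i * a j - κ * b i j) ^ 2 =
      K i j * K i j + (c i * c i) * (a j * a j) + (a i * a i) * (c j * c j) +
      ν ^ 2 * (a i * a i) * (a j * a j) + κ ^ 2 * (b i j * b i j) -
      2 * c i * (K i j * a j) - 2 * ((K i j * a i) * c j) + 2 * ν * a i * (K i j * a j) -
      2 * κ * (K i j * b i j) + 2 * (c i * a i) * (c j * a j) -
      2 * ν * (c i * a i) * (a j * a j) + 2 * κ * c i * (b i j * a j) -
      2 * ν * (a i * a i) * (c j * a j) + 2 * κ * ((b i j * a i) * c j) -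
      2 * ν * κ * a i * (b i j * a j) := fun i j => by ring
  have z1 : ∑ i, ∑ j, (K i j * a i) * c j = ∑ i, c i * c i := by
    rw [Finset.sum_comm]
    exact Finset.sum_congr rfl fun j _ => by rw [← Finset.sum_mul, hc' j]
  have z2 : ∑ i, ∑ j, (b i j * a i) * c j = 0 := by
    rw [Finset.sum_comm]
    exact Finset.sum_eq_zero fun j _ => by rw [← Finset.sum_mul, hb' j, zero_mul]
  have z3 : ∑ i, a i * c i = ν := by
    rw [← hν]
    exact Finset.sum_congr rfl fun i _ => mul_comm _ _
  simp only [e, Finset.sum_add_distrib, Finset.sum_sub_distrib, ← Finset.mul_sum, z1, z2, hc,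
    hb, ha, hν, ← Finset.sum_mul, mul_zero, Finset.sum_const_zero]
  have g1 : ∑ i, 2 * c i * c i = 2 * ∑ i, c i * c i := by
    rw [Finset.mul_sum]
    exact Finset.sum_congr rfl fun i _ => by ring
  have g2 : ∑ i, 2 * ν * a i * c i = 2 * ν * ν := by
    have g3 : ∑ i, 2 * ν * a i * c i = 2 * ν * ∑ i, a i * c i := by
      rw [Finset.mul_sum]
      exact Finset.sum_congr rfl fun i _ => by ring
    rw [g3, z3]
  rw [g1, g2]
  ring

namespace Lf

variable (hL : Lf h lam W O)
include hL

lemma a_col' (hKs : ∀ i j, K z i j = K z j i) (j : Fin n) :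
    ∑ i, K z i j * Stmt.pd i lam z = col lam K j z := by
  unfold col
  exact Finset.sum_congr rfl fun i _ => by rw [hKs i j]

/-- the norm of `K` -/
lemma normSq_eq (hz : z ∈ O) (hKs : ∀ i j, K z i j = K z j i) : Stmt.normSq h K z =
    ∑ i, ∑ j, K z i j * K z i j - 2 * (1 - 1 / (1 + W z)) *
      ∑ i, col lam K i z * col lam K i z + (1 - 1 / (1 + W z)) ^ 2 * nn lam K z ^ 2 := by
  have h1 := c2 (fun i => Stmt.pd i lam z) (1 - 1 / (1 + W z)) (K z) (K z) hKs
  have h2 : Stmt.normSq h K z = ∑ i, ∑ m, ((if i = m then 1 else 0) -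
      (1 - 1 / (1 + W z)) * Stmt.pd i lam z * Stmt.pd m lam z) * ∑ j, ∑ l,
      ((if j = l then 1 else 0) - (1 - 1 / (1 + W z)) * Stmt.pd j lam z * Stmt.pd l lam z) *
        (K z m j * K z i l) := by
    unfold Stmt.normSq
    simp only [← hL.up_eq hz]
    refine Finset.sum_congr rfl fun i _ => ?_
    calc ∑ j, ∑ k, ∑ l, Stmt.up h i k z * Stmt.up h j l z * K z i j * K z k l
        = ∑ k, ∑ j, ∑ l, Stmt.up h i k z * Stmt.up h j l z * K z i j * K z k l :=
          Finset.sum_comm
      _ = ∑ k, ∑ l, ∑ j, Stmt.up h i k z * Stmt.up h j l z * K z i j * K z k l :=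
          Finset.sum_congr rfl fun k _ => Finset.sum_comm
      _ = _ := by
          refine Finset.sum_congr rfl fun k _ => ?_
          rw [Finset.mul_sum]
          refine Finset.sum_congr rfl fun l _ => ?_
          rw [Finset.mul_sum]
          refine Finset.sum_congr rfl fun j _ => ?_
          rw [hL.M.up_symm hz j l]
          ring
  rw [h2, h1]
  have h3 : ∀ i, ∑ l, K z i l * Stmt.pd l lam z = col lam K i z := fun i => rfl
  simp only [h3, hL.a_col' hKs]
  have h4 : ∑ i, Stmt.pd i lam z * col lam K i z = nn lam K z := by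
    unfold nn
    exact Finset.sum_congr rfl fun i _ => mul_comm _ _
  rw [h4]
  ring

lemma sig_sq (hz : z ∈ O) (hKs : ∀ i j, K z i j = K z j i) :
    ∑ i, ∑ j, sig lam K i j z ^ 2 =
    ∑ i, ∑ j, K z i j * K z i j - 2 * ∑ i, col lam K i z * col lam K i z + nn lam K z ^ 2 -
      2 * kap lam K z * ∑ i, ∑ j, K z i j * Stmt.pd i (Stmt.pd j lam) z +
        kap lam K z ^ 2 * qq lam z := by
  have h := sig_sum (a := fun i => Stmt.pd i lam z) (c := fun i => col lam K i z) (K := K z)
    (b := fun i j => Stmt.pd i (Stmt.pd j lam) z) (ν := nn lam K z) (κ := kap lam K z)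
    (hL.un z hz) (fun i => rfl) (hL.a_col' hKs) rfl (fun i => hL.bz hz i) (fun j => by
      rw [← hL.bz hz j]
      exact Finset.sum_congr rfl fun i _ => by
        show Stmt.pd i (Stmt.pd j lam) z * _ = Stmt.pd j (Stmt.pd i lam) z * _
        rw [hL.bsym hz i j])
  unfold qq
  rw [← h]
  rfl

/-- `α` and tangential vectors -/
lemma alf_dot (hz : z ∈ O) (v : Fin n → ℝ) : ∑ i, alf lam W K i z * v i =
    (∑ i, v i * col lam K i z - (∑ i, v i * Stmt.pd i lam z) * nn lam K z) /
      √(1 + W z) := by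
  unfold alf
  have e : ∀ i, (col lam K i z - nn lam K z * Stmt.pd i lam z) / √(1 + W z) * v i =
      1 / √(1 + W z) * (v i * col lam K i z) -
        1 / √(1 + W z) * nn lam K z * (v i * Stmt.pd i lam z) := fun i => by ring
  simp only [e, Finset.sum_sub_distrib, ← Finset.mul_sum]
  ring

lemma alf_sq (hz : z ∈ O) : ∑ i, alf lam W K i z ^ 2 =
    1 / (1 + W z) * (∑ i, col lam K i z * col lam K i z - nn lam K z ^ 2) := by
  have hs0 := (hL.sq0 hz).ne'
  have hsq := hL.sq hz
  have e : ∀ i, alf lam W K i z ^ 2 = alf lam W K i z *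
      ((col lam K i z - nn lam K z * Stmt.pd i lam z) / √(1 + W z)) := fun i => by
    unfold alf; ring
  simp only [e]
  rw [hL.alf_dot hz]
  have e1 : ∀ i, (col lam K i z - nn lam K z * Stmt.pd i lam z) / √(1 + W z) *
      col lam K i z = 1 / √(1 + W z) * (col lam K i z * col lam K i z) -
        1 / √(1 + W z) * nn lam K z * (col lam K i z * Stmt.pd i lam z) := fun i => by ring
  have e2 : ∀ i, (col lam K i z - nn lam K z * Stmt.pd i lam z) / √(1 + W z) *
      Stmt.pd i lam z = 1 / √(1 + W z) * (col lam K i z * Stmt.pd i lam z) -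
        1 / √(1 + W z) * nn lam K z * (Stmt.pd i lam z * Stmt.pd i lam z) := fun i => by ring
  simp only [e1, e2, Finset.sum_sub_distrib, ← Finset.mul_sum, hL.un z hz]
  have h3 : ∑ i, col lam K i z * Stmt.pd i lam z = nn lam K z := rfl
  rw [h3]
  have h4 : 1 / (1 + W z) = 1 / √(1 + W z) * (1 / √(1 + W z)) := by
    rw [one_div_mul_one_div, hsq]
  rw [h4]
  ring

lemma cr_sqrt : CR 5 O fun y => √(1 + W y) := fun y hy =>
  ((CR.const 1 : CR 5 O _).add hL.sW y hy).sqrt (hL.pos y hy).ne'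

lemma cr_col (hK : ∀ i j, CR 1 O fun y => K y i j) (i : Fin n) : CR 1 O (col lam K i) :=
  CR.sum _ fun j => (hK i j).mul ((hL.sL1 j).le (by norm_num))

lemma cr_nn (hK : ∀ i j, CR 1 O fun y => K y i j) : CR 1 O (nn lam K) :=
  CR.sum _ fun j => (hL.cr_col hK j).mul ((hL.sL1 j).le (by norm_num))

lemma cr_trL (hK : ∀ i j, CR 1 O fun y => K y i j) : CR 1 O (trL lam K) :=
  (CR.sum _ fun i => hK i i).sub (hL.cr_nn hK)

lemma cr_kap (hK : ∀ i j, CR 1 O fun y => K y i j) (hD : ∀ y ∈ O, lapL lam y ≠ 0) :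
    CR 1 O (kap lam K) := by
  have e : kap lam K = fun y => trL lam K y * (lapL lam y)⁻¹ := by
    funext y
    exact div_eq_mul_inv _ _
  rw [e]
  exact (hL.cr_trL hK).mul (cr_inv (hL.cr_lap.le (by norm_num)) hD)

lemma cr_rat (hK : ∀ i j, CR 1 O fun y => K y i j) (hD : ∀ y ∈ O, lapL lam y ≠ 0) :
    CR 1 O (rat lam W K) := (hL.cr_kap hK hD).mul (hL.cr_sqrt.le (by norm_num))

/-- the derivative of `T` -/
lemma pd_rat (hK : ∀ i j, CR 1 O fun y => K y i j) (hD : ∀ y ∈ O, lapL lam y ≠ 0)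
    (hz : z ∈ O) (i : Fin n) : Stmt.pd i (rat lam W K) z = √(1 + W z) *
      (Stmt.pd i (kap lam K) z + 1 / 2 * (1 / (1 + W z)) * kap lam K z * Stmt.pd i W z) := by
  have h1 : HP i (rat lam W K) _ z := (CR.hp (hL.cr_kap hK hD) hz i).mul (hL.vol z hz i)
  rw [h1.pd, hL.chr_tr hz i]
  ring

/-- **The divergence of the flux field.** -/
theorem div_XL (hK : ∀ i j, CR 1 O fun y => K y i j) (hKs : ∀ y ∈ O, ∀ i j, K y i j = K y j i)
    (hD : ∀ y ∈ O, lapL lam y ≠ 0) (hz : z ∈ O) :
    ∑ i, Stmt.pd i (XL lam W K i) z = den lam W h K z := by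
  have hp := hL.pos z hz
  have hs0 := hL.sq0 hz
  have hsq := hL.sq hz
  have hDz := hD z hz
  set ψ : E n → ℝ := fun y => -1 * rat lam W K y with hψd
  have hrat := hL.cr_rat hK hD
  have hkap := hL.cr_kap hK hD
  have hψ : CR 1 O ψ := (CR.const _).mul hrat
  have hpψ : ∀ i, Stmt.pd i ψ z = -1 * (√(1 + W z) *
      (Stmt.pd i (kap lam K) z + 1 / 2 * (1 / (1 + W z)) * kap lam K z * Stmt.pd i W z)) := by
    intro i
    have h1 : HP i ψ _ z := (CR.hp hrat hz i).const_mul (-1)
    rw [h1.pd, hL.pd_rat hK hD hz i]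
  -- split the field
  have hcR : ∀ i, CR 1 O fun y => W y / (1 + W y) / 2 * lapL lam y * Stmt.pd i lam y -
      acc lam W i y := by
    intro i
    have e : (fun y => W y / (1 + W y) / 2 * lapL lam y * Stmt.pd i lam y -
        acc lam W i y) = fun y => W y * (1 + W y)⁻¹ * (1 / 2) * lapL lam y * Stmt.pd i lam y -
        (Stmt.pd i W y - (∑ j, Stmt.pd j W y * Stmt.pd j lam y) * Stmt.pd i lam y) *
          (1 / 2) * (1 + W y)⁻¹ := by
      funext y
      unfold acc grd
      rw [div_eq_mul_inv (W y)]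
      rw [div_eq_mul_inv _ (2 * (1 + W y)), mul_inv]
      ring
    rw [e]
    have hi : CR 1 O fun y => (1 + W y)⁻¹ :=
      cr_inv ((CR.const 1).add (hL.sW.le (by norm_num))) fun y hy => (hL.pos y hy).ne'
    exact ((((((hL.sW.le (by norm_num)).mul hi).mul (CR.const _)).mul
      (hL.cr_lap.le (by norm_num))).mul ((hL.sL1 i).le (by norm_num)))).sub
      (((((hL.sW1 i).le (by norm_num)).sub ((CR.sum _ fun j => ((hL.sW1 j).le
        (by norm_num)).mul ((hL.sL1 j).le (by norm_num))).mul ((hL.sL1 i).le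
          (by norm_num)))).mul (CR.const _)).mul hi)
  have hcV : ∀ i, CR 1 O fun y => ψ y / √(1 + W y) * (col lam K i y -
      nn lam K y * Stmt.pd i lam y - trL lam K y * Stmt.pd i lam y) := by
    intro i
    have hi : CR 1 O fun y => (√(1 + W y))⁻¹ :=
      cr_inv (hL.cr_sqrt.le (by norm_num)) fun y hy => (hL.sq0 hy).ne'
    have e : (fun y => ψ y / √(1 + W y) * (col lam K i y -
      nn lam K y * Stmt.pd i lam y - trL lam K y * Stmt.pd i lam y)) = fun y =>
      ψ y * (√(1 + W y))⁻¹ * (col lam K i y -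
      nn lam K y * Stmt.pd i lam y - trL lam K y * Stmt.pd i lam y) := by
      funext y
      rw [div_eq_mul_inv]
    rw [e]
    exact (hψ.mul hi).mul (((hL.cr_col hK i).sub ((hL.cr_nn hK).mul ((hL.sL1 i).le
      (by norm_num)))).sub ((hL.cr_trL hK).mul ((hL.sL1 i).le (by norm_num))))
  have hX : ∀ i, Stmt.pd i (XL lam W K i) z =
      Stmt.pd i (fun y => W y / (1 + W y) / 2 * lapL lam y * Stmt.pd i lam y -
        acc lam W i y) z +
      Stmt.pd i (fun y => ψ y / √(1 + W y) * (col lam K i y -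
        nn lam K y * Stmt.pd i lam y - trL lam K y * Stmt.pd i lam y)) z -
      1 / 2 * (((Stmt.pd i (kap lam K) z * kap lam K z +
        kap lam K z * Stmt.pd i (kap lam K) z) * lapL lam z +
        (kap lam K z * kap lam K z) * Stmt.pd i (lapL lam) z) * Stmt.pd i lam z +
        (kap lam K z * kap lam K z * lapL lam z) * Stmt.pd i (Stmt.pd i lam) z) := by
    intro i
    have g1 : HP i (fun y => 1 / 2 * (kap lam K y * kap lam K y * lapL lam y *
        Stmt.pd i lam y)) _ z :=
      (((((CR.hp hkap hz i).mul (CR.hp hkap hz i)).mul (hL.hplap hz i)).mul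
        (CR.hp ((hL.sL1 i).le (by norm_num : 0 + 1 ≤ 4)) hz i))).const_mul (1 / 2)
    have g2 : HP i (XL lam W K i) _ z :=
      (((CR.hp (hcR i) hz i).add (CR.hp (hcV i) hz i)).sub g1).congr (by
        filter_upwards [hL.op.mem_nhds hz] with x hx
        have b2 := (hL.sq0 hx).ne'
        have b3 := hD x hx
        have b4 : ψ x / √(1 + W x) = -kap lam K x := by
          rw [hψd]
          unfold rat
          field_simp
        have b5 : trL lam K x = kap lam K x * lapL lam x := by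
          unfold kap
          field_simp
        rw [b4, b5]
        unfold XL
        ring)
    exact g2.pd
  simp only [hX, Finset.sum_add_distrib, Finset.sum_sub_distrib]
  rw [hL.div_R hz, hL.div_V hK hKs hψ hz]
  have hst : trL lam K z = kap lam K z * lapL lam z := by
    unfold kap
    field_simp
  -- the last term
  have t1 : ∑ i, 1 / 2 * (((Stmt.pd i (kap lam K) z * kap lam K z +
        kap lam K z * Stmt.pd i (kap lam K) z) * lapL lam z +
        (kap lam K z * kap lam K z) * Stmt.pd i (lapL lam) z) * Stmt.pd i lam z +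
        (kap lam K z * kap lam K z * lapL lam z) * Stmt.pd i (Stmt.pd i lam) z) =
      kap lam K z * lapL lam z * (∑ i, Stmt.pd i (kap lam K) z * Stmt.pd i lam z) -
        1 / 2 * kap lam K z ^ 2 * qq lam z + 1 / 2 * kap lam K z ^ 2 * lapL lam z ^ 2 := by
    have e : ∀ i, 1 / 2 * (((Stmt.pd i (kap lam K) z * kap lam K z +
        kap lam K z * Stmt.pd i (kap lam K) z) * lapL lam z +
        (kap lam K z * kap lam K z) * Stmt.pd i (lapL lam) z) * Stmt.pd i lam z +
        (kap lam K z * kap lam K z * lapL lam z) * Stmt.pd i (Stmt.pd i lam) z) =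
        kap lam K z * lapL lam z * (Stmt.pd i (kap lam K) z * Stmt.pd i lam z) +
        1 / 2 * kap lam K z ^ 2 * (Stmt.pd i lam z * Stmt.pd i (lapL lam) z) +
        1 / 2 * kap lam K z ^ 2 * lapL lam z * Stmt.pd i (Stmt.pd i lam) z :=
      fun i => by ring
    have h2 : ∑ i, Stmt.pd i lam z * Stmt.pd i (lapL lam) z = -qq lam z := hL.dl_lap hz
    have h5 : ∑ i, Stmt.pd i (Stmt.pd i lam) z = lapL lam z := rfl
    simp only [e, Finset.sum_add_distrib, ← Finset.mul_sum]
    rw [h2, h5]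
    ring
  rw [t1]
  -- the derivatives of `ψ`
  have p1 : ∑ i, Stmt.pd i ψ z * col lam K i z = -√(1 + W z) *
      (∑ i, Stmt.pd i (kap lam K) z * col lam K i z + 1 / 2 * (1 / (1 + W z)) * kap lam K z *
        ∑ i, Stmt.pd i W z * col lam K i z) := by
    simp only [hpψ, Finset.mul_sum, mul_add]
    rw [← Finset.sum_add_distrib]
    exact Finset.sum_congr rfl fun i _ => by ring
  have p2 : ∑ i, Stmt.pd i ψ z * Stmt.pd i lam z = -√(1 + W z) *
      (∑ i, Stmt.pd i (kap lam K) z * Stmt.pd i lam z + 1 / 2 * (1 / (1 + W z)) *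
        kap lam K z * ∑ i, Stmt.pd i W z * Stmt.pd i lam z) := by
    simp only [hpψ, Finset.mul_sum, mul_add]
    rw [← Finset.sum_add_distrib]
    exact Finset.sum_congr rfl fun i _ => by ring
  rw [p1, p2]
  -- the density
  unfold den Stmt.mu
  rw [hL.sig_sq hz (hKs z hz), hL.alf_sq hz, hL.normSq_eq hz (hKs z hz), hL.tr_eq' hz K,
    hL.alf_dot hz, hL.alf_dot hz]
  have q1 : ∑ i, acc lam W i z * col lam K i z - (∑ i, acc lam W i z * Stmt.pd i lam z) *
      nn lam K z = 1 / (1 + W z) / 2 * (∑ i, Stmt.pd i W z * col lam K i z -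
        (∑ i, Stmt.pd i W z * Stmt.pd i lam z) * nn lam K z) := by
    have hac : ∀ i, acc lam W i z = 1 / (1 + W z) / 2 *
        (Stmt.pd i W z - (∑ j, Stmt.pd j W z * Stmt.pd j lam z) * Stmt.pd i lam z) := by
      intro i
      unfold acc grd
      field_simp
    have e1 : ∀ i, acc lam W i z * col lam K i z = 1 / (1 + W z) / 2 *
        (Stmt.pd i W z * col lam K i z) - 1 / (1 + W z) / 2 *
        (∑ j, Stmt.pd j W z * Stmt.pd j lam z) * (col lam K i z * Stmt.pd i lam z) := by
      intro i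
      rw [hac]
      ring
    have e2 : ∀ i, acc lam W i z * Stmt.pd i lam z = 1 / (1 + W z) / 2 *
        (Stmt.pd i W z * Stmt.pd i lam z) - 1 / (1 + W z) / 2 *
        (∑ j, Stmt.pd j W z * Stmt.pd j lam z) * (Stmt.pd i lam z * Stmt.pd i lam z) := by
      intro i
      rw [hac]
      ring
    simp only [e1, e2, Finset.sum_sub_distrib, ← Finset.mul_sum, hL.un z hz]
    rw [show ∑ i, col lam K i z * Stmt.pd i lam z = nn lam K z from rfl]
    ring
  have q2 : ∑ i, grd lam (rat lam W K) i z * col lam K i z -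
      (∑ i, grd lam (rat lam W K) i z * Stmt.pd i lam z) * nn lam K z =
      √(1 + W z) * ((∑ i, Stmt.pd i (kap lam K) z * col lam K i z -
        (∑ i, Stmt.pd i (kap lam K) z * Stmt.pd i lam z) * nn lam K z) +
        1 / 2 * (1 / (1 + W z)) * kap lam K z * (∑ i, Stmt.pd i W z * col lam K i z -
        (∑ i, Stmt.pd i W z * Stmt.pd i lam z) * nn lam K z)) := by
    have e1 : ∀ i, grd lam (rat lam W K) i z * col lam K i z =
        Stmt.pd i (rat lam W K) z * col lam K i z -
        (∑ j, Stmt.pd j (rat lam W K) z * Stmt.pd j lam z) *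
          (col lam K i z * Stmt.pd i lam z) := by
      intro i
      unfold grd
      ring
    have e2 : ∀ i, grd lam (rat lam W K) i z * Stmt.pd i lam z =
        Stmt.pd i (rat lam W K) z * Stmt.pd i lam z -
        (∑ j, Stmt.pd j (rat lam W K) z * Stmt.pd j lam z) *
          (Stmt.pd i lam z * Stmt.pd i lam z) := by
      intro i
      unfold grd
      ring
    simp only [e1, e2, Finset.sum_sub_distrib, ← Finset.mul_sum, hL.un z hz]
    rw [show ∑ i, col lam K i z * Stmt.pd i lam z = nn lam K z from rfl]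
    have e3 : ∀ v : Fin n → ℝ, ∑ i, Stmt.pd i (rat lam W K) z * v i =
        √(1 + W z) * (∑ i, Stmt.pd i (kap lam K) z * v i + 1 / 2 * (1 / (1 + W z)) *
          kap lam K z * ∑ i, Stmt.pd i W z * v i) := by
      intro v
      simp only [hL.pd_rat hK hD hz, Finset.mul_sum, mul_add]
      rw [← Finset.sum_add_distrib]
      exact Finset.sum_congr rfl fun i _ => by ring
    rw [e3, e3]
    ring
  rw [q1, q2, hst]
  have hu : √(1 + W z) ≠ 0 := hs0.ne'
  have hψz : ψ z = -(kap lam K z * √(1 + W z)) := by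
    show -1 * rat lam W K z = _
    unfold rat
    ring
  have hrz : rat lam W K z = kap lam K z * √(1 + W z) := rfl
  have s1e : ∑ i, ∑ l, K z i l * Stmt.pd i (Stmt.pd l lam) z =
      ∑ i, ∑ j, K z i j * Stmt.pd i (Stmt.pd j lam) z := rfl
  rw [hψz, hrz]
  have hr : 1 / (1 + W z) = 1 / (√(1 + W z) * √(1 + W z)) := by rw [hsq]
  rw [hr]
  generalize √(1 + W z) = u at hu ⊢
  generalize (∑ j, Stmt.mom h K j z * Stmt.pd j lam z) = J
  generalize (∑ i, Stmt.pd i (kap lam K) z * col lam K i z) = kc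
  generalize (∑ i, Stmt.pd i (kap lam K) z * Stmt.pd i lam z) = ka
  generalize (∑ i, Stmt.pd i W z * col lam K i z) = wc
  generalize (∑ i, Stmt.pd i W z * Stmt.pd i lam z) = wa
  generalize (∑ i, ∑ j, K z i j * Stmt.pd i (Stmt.pd j lam) z) = S1
  generalize (∑ i, ∑ j, K z i j * K z i j) = KK
  generalize (∑ i, col lam K i z * col lam K i z) = cc
  generalize (∑ i, acc lam W i z ^ 2) = A2
  generalize Stmt.scal h z = R
  generalize nn lam K z = ν
  generalize kap lam K z = κ
  generalize lapL lam z = L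
  generalize qq lam z = q
  field_simp
  ring

end Lf

end Vale.Agent.P366.CL
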