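import Vale.Agent.P366.H353.CL.Alg

/-! The contraction of `π = K - (tr K) g` with the covariant derivative of `ψ dλ`, for the metric
`g = δ + W dλ ⊗ dλ`. -/

noncomputable section
namespace Vale.Agent.P366.CL

variable {n : ℕ}

/-- the covariant derivative of `ψ dλ`: `p = dψ`, `w = dW`, `b = D²λ`, `a = dλ` -/
def cA (a p w : Fin n → ℝ) (b : Fin n → Fin n → ℝ) (ψ ρ : ℝ) (i l : Fin n) : ℝ :=
  p i * a l + ψ * ρ * (b i l - (w i * a l + w l * a i - (∑ j, w j * a j) * (a i * a l)) / 2)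

/-- `K - t (δ + W a ⊗ a)` -/
def cP (a : Fin n → ℝ) (K : Fin n → Fin n → ℝ) (t W : ℝ) (i l : Fin n) : ℝ :=
  K i l - t * ((if i = l then 1 else 0) + W * a i * a l)

variable {a p w : Fin n → ℝ} {b K : Fin n → Fin n → ℝ} {ψ ρ t W : ℝ}

lemma cA_right (ha : ∑ i, a i * a i = 1) (hb : ∀ i, ∑ l, b i l * a l = 0) (i : Fin n) :
    ∑ l, cA a p w b ψ ρ i l * a l = p i - ψ * ρ * w i / 2 := by
  have h : ∀ l, cA a p w b ψ ρ i l * a l = p i * (a l * a l) + ψ * ρ * (b i l * a l) -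
      ψ * ρ / 2 * w i * (a l * a l) - ψ * ρ / 2 * a i * (w l * a l) +
      ψ * ρ / 2 * (∑ j, w j * a j) * a i * (a l * a l) := by
    intro l; unfold cA; ring
  simp only [h, Finset.sum_add_distrib, Finset.sum_sub_distrib, ← Finset.mul_sum, ha, hb]
  ring

lemma cA_left (ha : ∑ i, a i * a i = 1) (hb : ∀ l, ∑ i, b i l * a i = 0) (l : Fin n) :
    ∑ i, cA a p w b ψ ρ i l * a i = (∑ i, p i * a i) * a l - ψ * ρ * w l / 2 := by
  have h : ∀ i, cA a p w b ψ ρ i l * a i = a l * (p i * a i) + ψ * ρ * (b i l * a i) -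
      ψ * ρ / 2 * a l * (w i * a i) - ψ * ρ / 2 * w l * (a i * a i) +
      ψ * ρ / 2 * (∑ j, w j * a j) * a l * (a i * a i) := by
    intro i; unfold cA; ring
  simp only [h, Finset.sum_add_distrib, Finset.sum_sub_distrib, ← Finset.mul_sum, ha, hb]
  ring

lemma cA_tr (ha : ∑ i, a i * a i = 1) :
    ∑ i, cA a p w b ψ ρ i i = ∑ i, p i * a i + ψ * ρ * (∑ i, b i i - (∑ i, w i * a i) / 2) := by
  have h : ∀ i, cA a p w b ψ ρ i i = p i * a i + ψ * ρ * b i i - ψ * ρ * (w i * a i) +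
      ψ * ρ / 2 * (∑ j, w j * a j) * (a i * a i) := by
    intro i; unfold cA; ring
  simp only [h, Finset.sum_add_distrib, Finset.sum_sub_distrib, ← Finset.mul_sum, ha]
  ring

lemma cA_K (hK : ∀ i j, K i j = K j i) :
    ∑ i, ∑ l, K i l * cA a p w b ψ ρ i l = ∑ i, p i * (∑ l, K i l * a l) +
      ψ * ρ * (∑ i, ∑ l, K i l * b i l - ∑ i, w i * (∑ l, K i l * a l) +
        (∑ i, w i * a i) * (∑ i, a i * ∑ l, K i l * a l) / 2) := by
  have h : ∀ i l, K i l * cA a p w b ψ ρ i l = p i * (K i l * a l) + ψ * ρ * (K i l * b i l) -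
      ψ * ρ / 2 * (w i * (K i l * a l)) - ψ * ρ / 2 * (w l * (K l i * a i)) +
      ψ * ρ / 2 * (∑ j, w j * a j) * (a i * (K i l * a l)) := by
    intro i l; unfold cA; rw [hK l i]; ring
  simp only [h, Finset.sum_add_distrib, Finset.sum_sub_distrib, ← Finset.mul_sum]
  have h2 : ∑ i, ∑ l, w l * (K l i * a i) = ∑ i, w i * ∑ l, K i l * a l := by
    rw [Finset.sum_comm]
    exact Finset.sum_congr rfl fun i _ => by rw [Finset.mul_sum]
  rw [h2]
  ring

lemma cP_right (ha : ∑ i, a i * a i = 1) (i : Fin n) :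
    ∑ l, cP a K t W i l * a l = (∑ l, K i l * a l) - t * (1 + W) * a i := by
  have h : ∀ l, cP a K t W i l * a l = K i l * a l - t * (if i = l then a l else 0) -
      t * W * a i * (a l * a l) := by
    intro l; unfold cP; split_ifs <;> ring
  simp only [h, Finset.sum_sub_distrib, ← Finset.mul_sum, ha]
  simp
  ring

/-- the contraction with the inverse metric -/
theorem key (ha : ∑ i, a i * a i = 1) (hb : ∀ i, ∑ l, b i l * a l = 0)
    (hbs : ∀ i l, b i l = b l i) (hK : ∀ i j, K i j = K j i) (hρ : ρ * (1 + W) = 1)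
    (ht : t = ∑ i, K i i - (1 - ρ) * ∑ i, a i * ∑ l, K i l * a l) :
    ∑ i, ∑ m, ((if i = m then 1 else 0) - (1 - ρ) * a i * a m) * ∑ j, ∑ l,
      ((if j = l then 1 else 0) - (1 - ρ) * a j * a l) *
        (cP a K t W m j * cA a p w b ψ ρ i l) =
    ρ * ((∑ i, p i * ∑ l, K i l * a l - (∑ i, p i * a i) * ∑ i, a i * ∑ l, K i l * a l) +
      ψ * ∑ i, ∑ l, K i l * b i l -
      ρ * ψ * (∑ i, w i * ∑ l, K i l * a l - (∑ i, w i * a i) * ∑ i, a i * ∑ l, K i l * a l) -
      (∑ i, K i i - ∑ i, a i * ∑ l, K i l * a l) * (∑ i, p i * a i) -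
      t * ψ * ∑ i, b i i +
      ρ * (∑ i, K i i - ∑ i, a i * ∑ l, K i l * a l) * ψ * (∑ i, w i * a i) / 2) := by
  have hPs : ∀ i j, cP a K t W i j = cP a K t W j i := by
    intro i j
    unfold cP
    rw [hK i j]
    simp only [eq_comm (a := i) (b := j)]
    ring
  have hb' : ∀ l, ∑ i, b i l * a i = 0 := fun l => by
    rw [← hb l]
    exact Finset.sum_congr rfl fun i _ => by rw [hbs]
  rw [c2 a (1 - ρ) (cP a K t W) (cA a p w b ψ ρ) hPs]
  simp only [cP_right ha, cA_right ha hb, cA_left ha hb']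
  clear hb'
  have e1 : ∑ i, ∑ l, cP a K t W i l * cA a p w b ψ ρ i l =
      ∑ i, ∑ l, K i l * cA a p w b ψ ρ i l - t * ∑ i, cA a p w b ψ ρ i i -
        t * W * ∑ i, a i * ∑ l, cA a p w b ψ ρ i l * a l := by
    have g1 : ∀ i, ∑ l, cP a K t W i l * cA a p w b ψ ρ i l =
        ∑ l, K i l * cA a p w b ψ ρ i l - t * cA a p w b ψ ρ i i -
          t * W * (a i * ∑ l, cA a p w b ψ ρ i l * a l) := by
      intro i
      have g2 : ∀ l, cP a K t W i l * cA a p w b ψ ρ i l = K i l * cA a p w b ψ ρ i l -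
          t * (if i = l then cA a p w b ψ ρ i l else 0) -
          t * W * a i * (cA a p w b ψ ρ i l * a l) := by
        intro l; unfold cP; split_ifs <;> ring
      simp only [g2, Finset.sum_sub_distrib, ← Finset.mul_sum]
      simp
      ring
    simp only [g1, Finset.sum_sub_distrib, ← Finset.mul_sum]
  rw [e1, cA_K hK, cA_tr ha]
  clear e1 hPs
  simp only [cA_right ha hb]
  obtain ⟨c, hc⟩ : ∃ c : Fin n → ℝ, ∀ i, ∑ l, K i l * a l = c i := ⟨_, fun _ => rfl⟩
  simp only [hc] at ht ⊢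
  have f1 : ∀ i, (c i - t * (1 + W) * a i) * (p i - ψ * ρ * w i / 2) =
      p i * c i - ψ * ρ / 2 * (w i * c i) - t * (1 + W) * (p i * a i) +
        t * (1 + W) * ψ * ρ / 2 * (w i * a i) := fun i => by ring
  have f2 : ∀ i, (c i - t * (1 + W) * a i) * ((∑ i, p i * a i) * a i - ψ * ρ * w i / 2) =
      (∑ i, p i * a i) * (a i * c i) - ψ * ρ / 2 * (w i * c i) -
        t * (1 + W) * (∑ i, p i * a i) * (a i * a i) +
        t * (1 + W) * ψ * ρ / 2 * (w i * a i) := fun i => by ring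
  have f3 : ∀ i, a i * (c i - t * (1 + W) * a i) = a i * c i - t * (1 + W) * (a i * a i) :=
    fun i => by ring
  have f4 : ∀ i, a i * (p i - ψ * ρ * w i / 2) = p i * a i - ψ * ρ / 2 * (w i * a i) :=
    fun i => by ring
  simp only [f1, f2, f3, f4, Finset.sum_add_distrib, Finset.sum_sub_distrib, ← Finset.mul_sum, ha]
  clear f1 f2 f3 f4
  generalize ∑ i, p i * c i = pc at *
  generalize ∑ i, w i * c i = wc at *
  generalize ∑ i, a i * c i = ν at *
  generalize ∑ i, p i * a i = pa at *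
  generalize ∑ i, w i * a i = wa at *
  generalize ∑ i, ∑ l, K i l * b i l = s at *
  generalize ∑ i, b i i = D at *
  generalize ∑ i, K i i = kk at *
  have hW : W = 1 / ρ - 1 := by
    have : ρ ≠ 0 := by rintro rfl; simp at hρ
    field_simp
    linarith
  have hρ0 : ρ ≠ 0 := by rintro rfl; simp at hρ
  subst ht hW
  field_simp
  ring

end Vale.Agent.P366.CL
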