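import Vale.Agent.P366.H353.CL.Key
import Vale.Agent.P366.H353.S.D
import Vale.Agent.P366.CL.Defs

/-! Local calculus for the metric `δ + W dλ ⊗ dλ`. -/

open MeasureTheory Metric Filter Topology Set
open scoped ContDiff

noncomputable section
namespace Vale.Agent.P366.CL
open Vale.Agent.P366.Stmt Vale.Agent.P366.T2 Vale.Agent.P366.GC
open Vale.Agent.P366.H896 (CR pd_comm pd_congrU)
open Vale.Agent.P366.SH (kb div_cov cov_contr dot2)

variable {n : ℕ} {h K : Stmt.Field n} {lam W ψ : E n → ℝ} {O : Set (E n)} {y z : E n}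

/-- The metric `h = δ + W dλ ⊗ dλ` on the open set `O`. -/
structure Lf (h : Stmt.Field n) (lam W : E n → ℝ) (O : Set (E n)) : Prop where
  M : Met h O
  sL : CR 5 O lam
  sW : CR 5 O W
  un : ∀ z ∈ O, ∑ i, Stmt.pd i lam z * Stmt.pd i lam z = 1
  pos : ∀ z ∈ O, 0 < 1 + W z
  met : ∀ z ∈ O, ∀ i j, h z i j =
    (if i = j then 1 else 0) + W z * Stmt.pd i lam z * Stmt.pd j lam z
  vol : ∀ z ∈ O, ∀ i, HP i (fun y => √(1 + W y))
    (√(1 + W z) * ∑ m, Stmt.chr h m i m z) z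

namespace Lf

variable (hL : Lf h lam W O)
include hL

lemma op : IsOpen O := hL.M.op

lemma sL1 (i : Fin n) : CR 4 O (Stmt.pd i lam) := CR.pd hL.op hL.sL i

lemma sL2 (i j : Fin n) : CR 3 O (Stmt.pd i (Stmt.pd j lam)) := CR.pd hL.op (hL.sL1 j) i

lemma sW1 (i : Fin n) : CR 4 O (Stmt.pd i W) := CR.pd hL.op hL.sW i

lemma bsym (hz : z ∈ O) (i j : Fin n) :
    Stmt.pd i (Stmt.pd j lam) z = Stmt.pd j (Stmt.pd i lam) z :=
  pd_comm hL.op (hL.sL.le (by norm_num)) hz i j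

lemma bz (hz : z ∈ O) (i : Fin n) :
    ∑ l, Stmt.pd i (Stmt.pd l lam) z * Stmt.pd l lam z = 0 := by
  have h1 : HP i (fun y => ∑ l, Stmt.pd l lam y * Stmt.pd l lam y)
      (∑ l, (Stmt.pd i (Stmt.pd l lam) z * Stmt.pd l lam z +
        Stmt.pd l lam z * Stmt.pd i (Stmt.pd l lam) z)) z :=
    HP.sum _ fun l _ => (CR.hp ((hL.sL1 l).le (by norm_num : 0 + 1 ≤ 4)) hz i).mul
      (CR.hp ((hL.sL1 l).le (by norm_num : 0 + 1 ≤ 4)) hz i)
  have h2 : HP i (fun y => ∑ l, Stmt.pd l lam y * Stmt.pd l lam y) 0 z :=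
    (HP.const i 1 z).congr (by
      filter_upwards [hL.op.mem_nhds hz] with x hx
      exact hL.un x hx)
  have h3 := h1.pd.symm.trans h2.pd
  have e : ∑ l, (Stmt.pd i (Stmt.pd l lam) z * Stmt.pd l lam z +
      Stmt.pd l lam z * Stmt.pd i (Stmt.pd l lam) z) =
      2 * ∑ l, Stmt.pd i (Stmt.pd l lam) z * Stmt.pd l lam z := by
    rw [Finset.mul_sum]
    exact Finset.sum_congr rfl fun l _ => by ring
  rw [e] at h3
  linarith

/-- the derivative of `Δλ` along `∇λ` -/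
lemma lap' (hz : z ∈ O) :
    ∑ k, Stmt.pd k lam z * Stmt.pd k (lapL lam) z =
      -∑ i, ∑ j, Stmt.pd i (Stmt.pd j lam) z * Stmt.pd i (Stmt.pd j lam) z := by
  -- derivative of `∑_l λ_{il} λ_l = 0` in the direction `i`, summed
  have h1 : ∀ i, ∑ l, (Stmt.pd i (Stmt.pd i (Stmt.pd l lam)) z * Stmt.pd l lam z +
      Stmt.pd i (Stmt.pd l lam) z * Stmt.pd i (Stmt.pd l lam) z) = 0 := by
    intro i
    have g1 : HP i (fun y => ∑ l, Stmt.pd i (Stmt.pd l lam) y * Stmt.pd l lam y)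
        (∑ l, (Stmt.pd i (Stmt.pd i (Stmt.pd l lam)) z * Stmt.pd l lam z +
          Stmt.pd i (Stmt.pd l lam) z * Stmt.pd i (Stmt.pd l lam) z)) z :=
      HP.sum _ fun l _ => (CR.hp ((hL.sL2 i l).le (by norm_num : 0 + 1 ≤ 3)) hz i).mul
        (CR.hp ((hL.sL1 l).le (by norm_num : 0 + 1 ≤ 4)) hz i)
    have g2 : HP i (fun y => ∑ l, Stmt.pd i (Stmt.pd l lam) y * Stmt.pd l lam y) 0 z :=
      (HP.const i 0 z).congr (by
        filter_upwards [hL.op.mem_nhds hz] with x hx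
        exact hL.bz hx i)
    exact g1.pd.symm.trans g2.pd
  have h2 : ∀ i l, Stmt.pd i (Stmt.pd i (Stmt.pd l lam)) z =
      Stmt.pd l (Stmt.pd i (Stmt.pd i lam)) z := by
    intro i l
    have g1 : Stmt.pd i (Stmt.pd i (Stmt.pd l lam)) z = Stmt.pd i (Stmt.pd l (Stmt.pd i lam)) z :=
      pd_congrU hL.op hz (fun x hx => hL.bsym hx i l) i
    rw [g1]
    exact pd_comm hL.op ((hL.sL1 i).le (by norm_num)) hz i l
  have h3 : ∀ l, Stmt.pd l (lapL lam) z = ∑ i, Stmt.pd l (Stmt.pd i (Stmt.pd i lam)) z := by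
    intro l
    exact (HP.sum _ fun i _ => CR.hp ((hL.sL2 i i).le (by norm_num : 0 + 1 ≤ 3)) hz l :
      HP l (fun y => ∑ i, Stmt.pd i (Stmt.pd i lam) y) _ z).pd
  simp only [h3, Finset.mul_sum]
  rw [Finset.sum_comm, ← Finset.sum_neg_distrib]
  refine Finset.sum_congr rfl fun i _ => ?_
  have h4 := h1 i
  rw [Finset.sum_add_distrib] at h4
  have h5 : ∑ l, Stmt.pd l lam z * Stmt.pd l (Stmt.pd i (Stmt.pd i lam)) z =
      ∑ l, Stmt.pd i (Stmt.pd i (Stmt.pd l lam)) z * Stmt.pd l lam z :=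
    Finset.sum_congr rfl fun l _ => by rw [h2 i l]; ring
  rw [h5]
  linarith

/-- the inverse metric -/
lemma up_eq (hz : z ∈ O) (i j : Fin n) : Stmt.up h i j z =
    (if i = j then 1 else 0) -
      (1 - 1 / (1 + W z)) * Stmt.pd i lam z * Stmt.pd j lam z := by
  have hp := hL.pos z hz
  set a : Fin n → ℝ := fun i => Stmt.pd i lam z with ha
  have hm : Stmt.mat h z * (Matrix.of fun i j => (if i = j then 1 else 0) -
      (1 - 1 / (1 + W z)) * a i * a j) = 1 := by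
    ext i j
    rw [Matrix.mul_apply, Matrix.one_apply]
    have e1 : ∀ k, Stmt.mat h z i k * (Matrix.of fun i j => (if i = j then 1 else 0) -
        (1 - 1 / (1 + W z)) * a i * a j) k j =
        (if k = j then (if i = k then 1 else 0) + W z * a i * a k else 0) -
        (1 - 1 / (1 + W z)) * a j * (if i = k then a k else 0) -
        (1 - 1 / (1 + W z)) * W z * a i * a j * (a k * a k) := by
      intro k
      rw [Matrix.of_apply]
      show h z i k * _ = _
      rw [hL.met z hz i k]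
      simp only [ha]
      split_ifs <;> ring
    simp only [e1, Finset.sum_sub_distrib, ← Finset.mul_sum]
    have hu : ∑ k, a k * a k = 1 := hL.un z hz
    rw [hu]
    simp only [Finset.sum_ite_eq', Finset.sum_ite_eq, Finset.mem_univ, if_true]
    field_simp
    ring
  have h2 : (Stmt.mat h z)⁻¹ = Matrix.of fun i j => (if i = j then 1 else 0) -
      (1 - 1 / (1 + W z)) * a i * a j := Matrix.inv_eq_right_inv hm
  unfold Stmt.up
  rw [h2, Matrix.of_apply]

end Lf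

end Vale.Agent.P366.CL
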